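import Vale.Agent.P095.Amen.Random.Moments

/-!
# P095: good samples exist
-/

namespace Vale.Agent.P095.Amen.Random

open MvPolynomial Finset Matrix MeasureTheory
open scoped Matrix.Norms.L2Operator

noncomputable section

variable {m α β : Type} [Fintype m] [Fintype α] [Fintype β] [DecidableEq α] [DecidableEq β]
  [DecidableEq m]

/-- The matrix `Y i` at a point. -/
def eY {p o : Type} [Fintype o] (z : GIdx m p o → ℝ) (i : m) : Matrix o p ℂ :=
  Matrix.of fun a b => evalR z (gY (i, a, b))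

/-- The coefficients that single out one letter. -/
def sel (i : m) : m → Matrix Unit Unit ℂ :=
  fun j => Matrix.of fun _ _ => if j = i then 1 else 0

theorem colSum_sel (i : m) : colSum (sel i) = 1 := by
  ext x y
  simp [colSum, sel, Matrix.sum_apply, Matrix.mul_apply]

theorem rowSum_sel (i : m) : ∑ j, sel i j * (sel i j)ᴴ = 1 := by
  ext x y
  simp [sel, Matrix.sum_apply, Matrix.mul_apply]

theorem norm_eY_le {p o : Type} [Fintype p] [Fintype o] [DecidableEq p] [DecidableEq o]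
    (z : GIdx m p o → ℝ) (i : m) : ‖eY z i‖ ≤ ‖eS (sel i) z‖ := by
  refine norm_le_of_sum_sq (norm_nonneg _) fun x => ?_
  have h := sum_sq_mulVec_le (eS (sel i) z) (fun w => x w.2)
  have e : ∀ a, (eS (sel i) z *ᵥ fun w => x w.2) ((), a) = (eY z i *ᵥ x) a := fun a => by
    simp [mulVec, dotProduct, eS, gS, eY, sel, Fintype.sum_prod_type]
  simpa [Fintype.sum_prod_type, e] using h

theorem re_gE_gTr_le_of_moments {p o : Type} [Fintype p] [Fintype o] [DecidableEq p]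
    [DecidableEq o] [Nonempty o] [Nonempty p] (c : m → Matrix β α ℂ) (hc : ‖colSum c‖ ≤ 1)
    {M : ℕ} (hM : 0 < M) {ε s ρ H : ℝ} (hε : ‖∑ i, c i * (c i)ᴴ‖ ≤ ε) (hs : (M : ℝ) * ε ≤ s)
    (hs0 : 0 < s) (hp : Fintype.card p = M * Fintype.card o) (hρ : 0 < ρ) (hH : 1 ≤ H)
    (hHρ : 1 ≤ H * ρ) (h1 : 24 * s ≤ ρ) (h2 : 192 * s ≤ ρ ^ 2) (P : ℕ)
    (hN : (M : ℝ) * (P * ((P : ℝ) + 2) ^ 2 * errBound m α β o H M P) ≤ min (ρ / 2) s) :
    (gE (gTr (p := p) (o := o) c P)).re ≤ Fintype.card p * Fintype.card α * ρ ^ P := by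
  refine (re_gE_gTr_le c P).trans (mul_le_mul_of_nonneg_left ?_ (by positivity))
  refine ((moments_le c hc hM hε hs hs0 hp hρ hH hHρ h1 h2 hN P le_rfl).1).trans
    (mul_le_of_le_one_left (by positivity) ?_)
  refine pow_le_one₀ (by positivity) (inv_le_one_of_one_le₀ ?_)
  linarith [Nat.cast_nonneg (α := ℝ) P]

/-- A large even exponent makes the error term small. -/
theorem exists_exponent (C δ : ℝ) (hδ : 0 < δ) (P₀ : ℕ) :
    ∃ q : ℕ, 0 < q ∧ P₀ ≤ 2 * q ∧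
      C * ((2 * q : ℕ) : ℝ) ^ 3 * (((2 * q : ℕ) : ℝ) + 2) ^ 2 / 2 ^ (2 * q) ≤ δ := by
  have h := tendsto_pow_const_div_const_pow_of_one_lt 5 (r := (2 : ℝ)) one_lt_two
  have h' := (h.const_mul (4 * |C|))
  rw [mul_zero] at h'
  obtain ⟨N, hN⟩ := Filter.eventually_atTop.1 (h'.eventually_le_const hδ)
  refine ⟨N + P₀ + 1, by omega, by omega, le_trans ?_ (hN (2 * (N + P₀ + 1)) (by omega))⟩
  set n := 2 * (N + P₀ + 1) with hn
  have hn2 : (2 : ℝ) ≤ n := by exact_mod_cast (by omega : 2 ≤ n)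
  rw [← mul_div_assoc]
  refine div_le_div_of_nonneg_right ?_ (by positivity)
  calc C * (n : ℝ) ^ 3 * ((n : ℝ) + 2) ^ 2 ≤ |C| * (n : ℝ) ^ 3 * (2 * n) ^ 2 := by
        gcongr
        · exact le_abs_self C
        · linarith
    _ = _ := by ring

/-- There is a sample with `‖W‖ = O(√(M ε))` and `‖Y i‖ = O(√M)`. -/
theorem exists_sample (c : m → Matrix β α ℂ) (hc : ‖colSum c‖ ≤ 1) {M : ℕ} (hM : 0 < M) {ε : ℝ}
    (hε0 : 0 < ε) (hε : ‖∑ i, c i * (c i)ᴴ‖ ≤ ε) (hMε : (M : ℝ) * ε ≤ 1) :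
    ∃ N : ℕ, 0 < N ∧ ∃ z : GIdx m (Fin (M * N)) (Fin N) → ℝ,
      ‖eW c z‖ ≤ 96 * Real.sqrt (M * ε) ∧ ∀ i, ‖eY z i‖ ≤ 10 * Real.sqrt M := by
  classical
  set s : ℝ := M * ε with hs
  have hs0 : 0 < s := by positivity
  set ρ : ℝ := 24 * Real.sqrt s with hρ
  have hρ0 : 0 < ρ := by positivity
  set H : ℝ := max 1 ρ⁻¹ with hH
  have hH1 : 1 ≤ H := le_max_left _ _
  have hHρ : 1 ≤ H * ρ := by
    calc (1 : ℝ) = ρ⁻¹ * ρ := (inv_mul_cancel₀ hρ0.ne').symm
      _ ≤ H * ρ := mul_le_mul_of_nonneg_right (le_max_right _ _) hρ0.le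
  have hss : s ≤ Real.sqrt s := Real.le_sqrt_of_sq_le (by nlinarith)
  have h1 : 24 * s ≤ ρ := by linarith
  have h2 : 192 * s ≤ ρ ^ 2 := by
    rw [hρ, mul_pow, Real.sq_sqrt hs0.le]; linarith
  have hM1 : (1 : ℝ) ≤ M := by exact_mod_cast hM
  set S : ℝ := (Fintype.card m : ℝ) + Fintype.card α + Fintype.card β + 4 with hS
  obtain ⟨q, hq0, hqP, hq⟩ := exists_exponent (288 * S ^ 12 * H ^ 3 * (M : ℝ) ^ 2)
    (min (min (ρ / 2) s) 1) (lt_min (lt_min (by positivity) hs0) one_pos)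
    (M * (Fintype.card α + Fintype.card m))
  set P := 2 * q with hP
  have : Nonempty (Fin (2 ^ P)) := ⟨⟨0, by positivity⟩⟩
  have : Nonempty (Fin (M * 2 ^ P)) := ⟨⟨0, by positivity⟩⟩
  refine ⟨2 ^ P, by positivity, ?_⟩
  have hp : Fintype.card (Fin (M * 2 ^ P)) = M * Fintype.card (Fin (2 ^ P)) := by simp
  have herr : ∀ (H' : ℝ) (a b : ℕ) (S' : ℝ), 1 ≤ H' → H' ≤ H → 0 ≤ S' → S' ≤ S →
      (M : ℝ) * (P * ((P : ℝ) + 2) ^ 2 * (288 * S' ^ 12 * (P : ℝ) ^ 2 * H' ^ 3 * M /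
        Fintype.card (Fin (2 ^ P)))) ≤ min (min (ρ / 2) s) 1 := fun H' _ _ S' h1' h2' h3 h4 => by
    refine le_trans ?_ hq
    rw [Fintype.card_fin, Nat.cast_pow, Nat.cast_ofNat]
    calc (M : ℝ) * (P * ((P : ℝ) + 2) ^ 2 * (288 * S' ^ 12 * (P : ℝ) ^ 2 * H' ^ 3 * M / 2 ^ P))
        = 288 * S' ^ 12 * H' ^ 3 * (M : ℝ) ^ 2 * (P : ℝ) ^ 3 * ((P : ℝ) + 2) ^ 2 / 2 ^ P := by ring
      _ ≤ _ := by gcongr
  -- the moments of the model
  have hmain : (gE (gTr (p := Fin (M * 2 ^ P)) (o := Fin (2 ^ P)) c P)).re ≤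
      Fintype.card (Fin (M * 2 ^ P)) * Fintype.card α * ρ ^ P := by
    refine re_gE_gTr_le_of_moments c hc hM hε le_rfl hs0 hp hρ0 hH1 hHρ h1 h2 P ?_
    exact (herr H 0 0 _ hH1 le_rfl (by positivity) (by rw [hS]; linarith)).trans (min_le_left _ _)
  -- the moments of one letter
  have hone : ∀ i : m, (gE (gTr (p := Fin (M * 2 ^ P)) (o := Fin (2 ^ P)) (sel i) P)).re ≤
      Fintype.card (Fin (M * 2 ^ P)) * (24 * (M : ℝ)) ^ P := fun i => by
    refine (re_gE_gTr_le_of_moments (sel i) (le_of_eq (by rw [colSum_sel, norm_one])) hM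
      (ε := 1) (s := M) (H := 1) (le_of_eq (by rw [rowSum_sel, norm_one])) (by simp)
      (by positivity) hp (ρ := 24 * M) (by positivity) le_rfl (by linarith) le_rfl
      (by nlinarith) P ?_).trans (le_of_eq (by simp))
    refine le_trans (herr 1 0 0 _ le_rfl hH1 (by positivity) ?_) ?_
    · simp only [Fintype.card_unit, Nat.cast_one, hS]
      linarith [Nat.cast_nonneg (α := ℝ) (Fintype.card α), Nat.cast_nonneg (α := ℝ) (Fintype.card β)]
    · exact (min_le_right _ _).trans (le_min (by linarith) hM1)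
  -- one sample for all of them
  let G : GPoly m (Fin (M * 2 ^ P)) (Fin (2 ^ P)) :=
    (((ρ ^ P)⁻¹ : ℝ) : ℂ) • gTr c P + ∑ i : m, ((((24 * (M : ℝ)) ^ P)⁻¹ : ℝ) : ℂ) • gTr (sel i) P
  have hre : ∀ z, (evalR z G).re = (ρ ^ P)⁻¹ * (evalR z (gTr c P)).re +
      ∑ i : m, ((24 * (M : ℝ)) ^ P)⁻¹ * (evalR z (gTr (sel i) P)).re := fun z => by
    simp only [G, smul_eq_C_mul, map_add, map_sum, map_mul, Complex.add_re, Complex.re_sum]
    simp only [evalR, eval_C, Complex.re_ofReal_mul]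
  obtain ⟨z, hz⟩ := exists_le_integral (μ := γs (GIdx m (Fin (M * 2 ^ P)) (Fin (2 ^ P))))
    (f := fun z => (evalR z G).re) (integrable_evalR G).re
  have hint : ∫ z, (evalR z G).re ∂γs (GIdx m (Fin (M * 2 ^ P)) (Fin (2 ^ P))) ≤
      (4 : ℝ) ^ P := by
    rw [show ∫ z, (evalR z G).re ∂γs (GIdx m (Fin (M * 2 ^ P)) (Fin (2 ^ P))) = (gE G).re from
      (integral_re (integrable_evalR G)).trans (congrArg Complex.re (gE_eq_integral G).symm)]
    simp only [G, map_add, map_sum, map_smul, smul_eq_mul, Complex.add_re, Complex.re_sum,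
      Complex.re_ofReal_mul]
    refine (add_le_add ((inv_mul_le_iff₀ (by positivity)).2 (hmain.trans (le_of_eq (mul_comm _ _))))
      (Finset.sum_le_card_nsmul _ _ _ fun i _ =>
        (inv_mul_le_iff₀ (by positivity)).2 ((hone i).trans (le_of_eq (mul_comm _ _))))).trans ?_
    simp only [Finset.card_univ, nsmul_eq_mul, Fintype.card_fin]
    push_cast
    have hk : M * (Fintype.card α + Fintype.card m) ≤ 2 ^ P := hqP.trans Nat.lt_two_pow_self.le
    have hk' : (M : ℝ) * (Fintype.card α + Fintype.card m) ≤ 2 ^ P := by exact_mod_cast hk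
    calc (M : ℝ) * 2 ^ P * Fintype.card α + Fintype.card m * (M * 2 ^ P)
        = M * (Fintype.card α + Fintype.card m) * 2 ^ P := by ring
      _ ≤ 2 ^ P * 2 ^ P := by gcongr
      _ = _ := by rw [← mul_pow]; norm_num
  have hz' := hz.trans hint
  simp only [hre] at hz'
  have hT : 0 ≤ (evalR z (gTr c P)).re := re_evalR_gTr_nonneg c z q
  have hTi : ∀ i : m, 0 ≤ (evalR z (gTr (sel i) P)).re := fun i : m => re_evalR_gTr_nonneg (sel i) z q
  have hP0 : P ≠ 0 := by omega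
  refine ⟨z, ?_, fun i => ?_⟩
  · have h := (norm_eW_pow_le_gTr c z hq0).trans ((inv_mul_le_iff₀ (by positivity)).1
      ((le_add_of_nonneg_right (Finset.sum_nonneg fun i _ =>
        mul_nonneg (by positivity) (hTi i))).trans hz'))
    rw [← hP, ← mul_pow] at h
    calc ‖eW c z‖ ≤ ρ * 4 := (pow_le_pow_iff_left₀ (norm_nonneg _) (by positivity) hP0).1 h
      _ = _ := by rw [hρ, hs]; ring
  · have h := (norm_eW_pow_le_gTr (sel i) z hq0).trans ((inv_mul_le_iff₀ (by positivity)).1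
      (((Finset.single_le_sum (f := fun j => ((24 * (M : ℝ)) ^ P)⁻¹ *
        (evalR z (gTr (sel j) P)).re) (fun j _ => mul_nonneg (by positivity) (hTi j))
        (Finset.mem_univ i)).trans (le_add_of_nonneg_left (by positivity))).trans hz'))
    rw [← hP, ← mul_pow] at h
    have hW := (pow_le_pow_iff_left₀ (norm_nonneg _) (by positivity) hP0).1 h
    have hS2 := norm_eS_sq_le (sel i) z (le_of_eq (by rw [colSum_sel, norm_one]))
    refine (norm_eY_le z i).trans ?_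
    refine (pow_le_pow_iff_left₀ (norm_nonneg _) (by positivity) two_ne_zero).1 ?_
    rw [mul_pow, Real.sq_sqrt (Nat.cast_nonneg _)]
    linarith

end

end Vale.Agent.P095.Amen.Random
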