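import Mathlib

/-!
# P095: elementary facts on the operator norm of complex matrices
-/

namespace Vale.Agent.P095.Amen.Random

open Matrix Finset
open scoped Matrix.Norms.L2Operator

noncomputable section

variable {I J : Type} [Fintype I] [Fintype J] [DecidableEq I] [DecidableEq J]

omit [DecidableEq I] in
/-- A matrix does not stretch by more than its norm. -/
theorem sum_sq_mulVec_le (A : Matrix I J ℂ) (x : J → ℂ) :
    ∑ i, ‖(A *ᵥ x) i‖ ^ 2 ≤ ‖A‖ ^ 2 * ∑ j, ‖x j‖ ^ 2 := by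
  have h := l2_opNorm_mulVec A (WithLp.toLp 2 x)
  have h2 := pow_le_pow_left₀ (norm_nonneg _) h 2
  rw [mul_pow, EuclideanSpace.norm_sq_eq, EuclideanSpace.norm_sq_eq] at h2
  simpa using h2

omit [DecidableEq I] in
/-- A bound on all vectors bounds the norm. -/
theorem norm_le_of_sum_sq {A : Matrix I J ℂ} {C : ℝ} (hC : 0 ≤ C)
    (h : ∀ x : J → ℂ, ∑ i, ‖(A *ᵥ x) i‖ ^ 2 ≤ C ^ 2 * ∑ j, ‖x j‖ ^ 2) : ‖A‖ ≤ C := by
  rw [l2_opNorm_def]
  refine ContinuousLinearMap.opNorm_le_bound _ hC fun x => ?_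
  refine pow_le_pow_iff_left₀ (norm_nonneg _) (by positivity) two_ne_zero |>.1 ?_
  rw [mul_pow, EuclideanSpace.norm_sq_eq, EuclideanSpace.norm_sq_eq]
  simpa using h x.ofLp

/-- A row is no longer than the norm. -/
theorem sum_sq_row_le (A : Matrix I J ℂ) (i : I) : ∑ j, ‖A i j‖ ^ 2 ≤ ‖A‖ ^ 2 := by
  have h := sum_sq_mulVec_le Aᴴ (Pi.single i 1)
  rw [l2_opNorm_conjTranspose, Finset.sum_eq_single i (f := fun k => ‖(Pi.single i (1 : ℂ) : I → ℂ) k‖ ^ 2)
    (fun k _ hk => by simp [hk]) (by simp)] at h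
  simpa [mulVec, dotProduct, Pi.single_apply, conjTranspose_apply] using h

/-- An entry is at most the norm. -/
theorem norm_entry_le (A : Matrix I J ℂ) (i : I) (j : J) : ‖A i j‖ ≤ ‖A‖ :=
  pow_le_pow_iff_left₀ (norm_nonneg _) (norm_nonneg _) two_ne_zero |>.1
    ((Finset.single_le_sum (fun k _ => sq_nonneg (‖A i k‖)) (Finset.mem_univ j)).trans
      (sum_sq_row_le A i))

omit [DecidableEq I] in
/-- The norm is at most the sum of the entries. -/
theorem norm_le_sum_entries (A : Matrix I J ℂ) : ‖A‖ ≤ ∑ i, ∑ j, ‖A i j‖ := by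
  have hsq : ‖A‖ ≤ Real.sqrt (∑ i, ∑ j, ‖A i j‖ ^ 2) := by
    refine norm_le_of_sum_sq (Real.sqrt_nonneg _) fun x => ?_
    rw [Real.sq_sqrt (Finset.sum_nonneg fun i _ => Finset.sum_nonneg fun j _ => sq_nonneg _),
      Finset.sum_mul]
    refine Finset.sum_le_sum fun i _ => ?_
    calc ‖(A *ᵥ x) i‖ ^ 2 ≤ (∑ j, ‖A i j‖ * ‖x j‖) ^ 2 := by
          refine pow_le_pow_left₀ (norm_nonneg _) ?_ 2
          exact (norm_sum_le _ _).trans (le_of_eq (Finset.sum_congr rfl fun j _ => norm_mul _ _))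
      _ ≤ (∑ j, ‖A i j‖ ^ 2) * ∑ j, ‖x j‖ ^ 2 := Finset.sum_mul_sq_le_sq_mul_sq _ _ _
  have hin : ∀ i, ∑ j, ‖A i j‖ ^ 2 ≤ (∑ j, ‖A i j‖) ^ 2 := fun i =>
    Finset.sum_sq_le_sq_sum_of_nonneg fun j _ => norm_nonneg _
  refine hsq.trans (Real.sqrt_le_iff.2
    ⟨Finset.sum_nonneg fun i _ => Finset.sum_nonneg fun j _ => norm_nonneg _, ?_⟩)
  exact (Finset.sum_le_sum fun i _ => hin i).trans
    (Finset.sum_sq_le_sq_sum_of_nonneg fun i _ => Finset.sum_nonneg fun j _ => norm_nonneg _)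

variable {p : Type} [Fintype p] [DecidableEq p]

/-- `A ⊗ 1`. -/
def tensorOne (A : Matrix I J ℂ) : Matrix (I × p) (J × p) ℂ :=
  Matrix.of fun s t => if s.2 = t.2 then A s.1 t.1 else 0

omit [DecidableEq I] in
theorem norm_tensorOne_le (A : Matrix I J ℂ) :
    ‖(tensorOne A : Matrix (I × p) (J × p) ℂ)‖ ≤ ‖A‖ := by
  refine norm_le_of_sum_sq (norm_nonneg _) fun x => ?_
  have h : ∀ i b, ((tensorOne A : Matrix (I × p) (J × p) ℂ) *ᵥ x) (i, b) =
      (A *ᵥ fun j => x (j, b)) i := fun i b => by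
    simp [mulVec, dotProduct, tensorOne, Fintype.sum_prod_type]
  rw [Fintype.sum_prod_type, Fintype.sum_prod_type, Finset.sum_comm,
    Finset.sum_comm (f := fun j b => ‖x (j, b)‖ ^ 2), Finset.mul_sum]
  refine Finset.sum_le_sum fun b _ => ?_
  simp only [h]
  exact sum_sq_mulVec_le A _

theorem norm_single_le (i : I) (j : J) : ‖(Matrix.single i j (1 : ℂ))‖ ≤ 1 := by
  refine (norm_le_sum_entries _).trans (le_of_eq ?_)
  rw [Finset.sum_eq_single i (fun k _ hk => Finset.sum_eq_zero fun l _ => by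
    simp [Matrix.single, Ne.symm hk]) (by simp),
    Finset.sum_eq_single j (fun l _ hl => by simp [Matrix.single, Ne.symm hl]) (by simp)]
  simp [Matrix.single]

/-- The Frobenius bound behind the gradient estimates. -/
theorem sum_sq_contract_le {ξ ν ι₁ ι₂ : Type} [Fintype ξ] [DecidableEq ξ] [Fintype ν]
    [DecidableEq ν] [Fintype ι₁] [DecidableEq ι₁] [Fintype ι₂] [DecidableEq ι₂]
    (L : Matrix (ξ × ν) (I × ι₁) ℂ) (R : Matrix (J × ι₂) (ξ × ν) ℂ) (w : I → J → ℂ)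
    (hw : ∀ i j, ‖w i j‖ ≤ 1) (x y : ξ) :
    ∑ a, ∑ b, ‖∑ i, ∑ j, w i j * ∑ e, L (x, e) (i, a) * R (j, b) (y, e)‖ ^ 2 ≤
      ((Fintype.card I * Fintype.card J : ℕ) : ℝ) ^ 2 * Fintype.card ι₂ * (‖L‖ * ‖R‖) ^ 2 := by
  classical
  set Q := R * (tensorOne (Matrix.single y x 1) : Matrix (ξ × ν) (ξ × ν) ℂ) * L with hQ
  have hRT : ∀ (j : J) (b : ι₂) (z : ξ × ν),
      (R * (tensorOne (Matrix.single y x 1) : Matrix (ξ × ν) (ξ × ν) ℂ)) (j, b) z =
        if z.1 = x then R (j, b) (y, z.2) else 0 := fun j b z => by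
    rw [Matrix.mul_apply, Fintype.sum_prod_type, Finset.sum_eq_single y
      (fun k _ hk => Finset.sum_eq_zero fun e _ => by simp [tensorOne, Matrix.single, Ne.symm hk])
      (by simp)]
    rcases eq_or_ne z.1 x with h | h
    · simp [tensorOne, Matrix.single, h]
    · simp [tensorOne, Matrix.single, h, Ne.symm h]
  have hQe : ∀ i a j b, ∑ e, L (x, e) (i, a) * R (j, b) (y, e) = Q (j, b) (i, a) := fun i a j b => by
    rw [hQ, Matrix.mul_apply, Fintype.sum_prod_type]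
    simp only [hRT, ite_mul, zero_mul]
    rw [Finset.sum_eq_single x (fun k _ hk => Finset.sum_eq_zero fun e _ => by simp [hk]) (by simp)]
    exact Finset.sum_congr rfl fun e _ => by simp [mul_comm]
  have hQn : ‖Q‖ ≤ ‖L‖ * ‖R‖ := by
    refine (l2_opNorm_mul _ _).trans ?_
    rw [mul_comm]
    refine mul_le_mul_of_nonneg_left ?_ (norm_nonneg _)
    refine (l2_opNorm_mul _ _).trans (mul_le_of_le_one_right (norm_nonneg _) ?_)
    exact (norm_tensorOne_le _).trans (norm_single_le y x)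
  calc ∑ a, ∑ b, ‖∑ i, ∑ j, w i j * ∑ e, L (x, e) (i, a) * R (j, b) (y, e)‖ ^ 2
      ≤ ∑ a, ∑ b, ((Fintype.card I * Fintype.card J : ℕ) : ℝ) *
          ∑ i, ∑ j, ‖Q (j, b) (i, a)‖ ^ 2 := by
        refine Finset.sum_le_sum fun a _ => Finset.sum_le_sum fun b _ => ?_
        simp only [hQe]
        have h1 : ‖∑ i, ∑ j, w i j * Q (j, b) (i, a)‖ ≤ ∑ q : I × J, ‖Q (q.2, b) (q.1, a)‖ := by
          rw [Fintype.sum_prod_type]
          refine (norm_sum_le _ _).trans (Finset.sum_le_sum fun i _ => ?_)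
          refine (norm_sum_le _ _).trans (Finset.sum_le_sum fun j _ => ?_)
          rw [norm_mul]
          exact mul_le_of_le_one_left (norm_nonneg _) (hw i j)
        refine (pow_le_pow_left₀ (norm_nonneg _) h1 2).trans ?_
        refine sq_sum_le_card_mul_sum_sq.trans (le_of_eq ?_)
        rw [Fintype.sum_prod_type, Finset.card_univ, Fintype.card_prod]
    _ = ((Fintype.card I * Fintype.card J : ℕ) : ℝ) * ∑ j, ∑ b, ∑ i, ∑ a, ‖Q (j, b) (i, a)‖ ^ 2 := by
        rw [Finset.mul_sum]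
        simp only [Finset.mul_sum]
        rw [Finset.sum_comm]
        conv_rhs => rw [Finset.sum_comm]
        refine Finset.sum_congr rfl fun b _ => ?_
        rw [Finset.sum_comm]
        conv_rhs => rw [Finset.sum_comm]
        exact Finset.sum_congr rfl fun i _ => Finset.sum_comm
    _ ≤ ((Fintype.card I * Fintype.card J : ℕ) : ℝ) * ∑ _j : J, ∑ _b : ι₂, ‖Q‖ ^ 2 := by
        refine mul_le_mul_of_nonneg_left (Finset.sum_le_sum fun j _ => Finset.sum_le_sum fun b _ => ?_)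
          (Nat.cast_nonneg _)
        rw [← Fintype.sum_prod_type (f := fun z : I × ι₁ => ‖Q (j, b) z‖ ^ 2)]
        exact sum_sq_row_le Q (j, b)
    _ ≤ ((Fintype.card I * Fintype.card J : ℕ) : ℝ) ^ 2 * Fintype.card ι₂ * (‖L‖ * ‖R‖) ^ 2 := by
        rcases isEmpty_or_nonempty I with hI | hI
        · simp
        simp only [Finset.sum_const, Finset.card_univ, nsmul_eq_mul]
        have h1 : (Fintype.card J : ℝ) ≤ ((Fintype.card I * Fintype.card J : ℕ) : ℝ) := by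
          exact_mod_cast Nat.le_mul_of_pos_left _ Fintype.card_pos
        have h2 : ‖Q‖ ^ 2 ≤ (‖L‖ * ‖R‖) ^ 2 := pow_le_pow_left₀ (norm_nonneg _) hQn 2
        calc _ ≤ ((Fintype.card I * Fintype.card J : ℕ) : ℝ) *
              (((Fintype.card I * Fintype.card J : ℕ) : ℝ) * (Fintype.card ι₂ * (‖L‖ * ‖R‖) ^ 2)) := by
              gcongr
          _ = _ := by ring

end

end Vale.Agent.P095.Amen.Random
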