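import Vale.Agent.P095.Amen.Random.Rotate

/-!
# P095: covariances are bounded by gradients
-/

namespace Vale.Agent.P095.Amen.Random

open MvPolynomial Finset MeasureTheory
open scoped ComplexConjugate

noncomputable section

variable {ι : Type} [Fintype ι]

/-- The squared length of the gradient at a point. -/
def gradSq (f : MvPolynomial ι ℂ) (x : ι → ℝ) : ℝ := ∑ j, ‖evalR x (pderiv j f)‖ ^ 2

/-- The rotated point. -/
def rotPt (θ : ℝ) (z : ι ⊕ ι → ℝ) : ι → ℝ :=
  fun i => Real.cos θ * z (Sum.inl i) + Real.sin θ * z (Sum.inr i)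

omit [Fintype ι] in
theorem evalR_fst' (z : ι ⊕ ι → ℝ) (f : MvPolynomial ι ℂ) :
    evalR z (fst' f) = evalR (z ∘ Sum.inl) f := by
  simp [evalR, fst', eval_rename, Function.comp_def]

omit [Fintype ι] in
theorem evalR_rot (θ : ℝ) (z : ι ⊕ ι → ℝ) (f : MvPolynomial ι ℂ) :
    evalR z (rot θ f) = evalR (rotPt θ z) f := by
  induction f using MvPolynomial.induction_on with
  | C a => simp [rot, evalR]
  | add p q hp hq => simp [hp, hq]
  | mul_X p i hp =>
    rw [map_mul, map_mul, map_mul, hp, rot_X]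
    congr 1
    simp [evalR, rotPt, smul_eq_C_mul]

theorem gE_fst' (f : MvPolynomial ι ℂ) : gE (fst' f) = gE f := by
  simpa using gE_fst'_mul_snd' f 1

/-- Rotations preserve expectations. -/
theorem gE_rot (θ : ℝ) (g : MvPolynomial ι ℂ) : gE (rot θ g) = gE g := by
  have h : ∀ t, HasDerivAt (fun t => gE (fst' (1 : MvPolynomial ι ℂ) * rot t g)) 0 t := fun t =>
    (hasDerivAt_gE_fst'_rot 1 g t).congr_deriv (by simp)
  have h2 := is_const_of_deriv_eq_zero (fun t => (h t).differentiableAt) (fun t => (h t).deriv) θ 0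
  simpa [rot_zero, gE_fst'] using h2

/-- Covariances are bounded by products of gradients along the rotation. -/
theorem norm_cov_le (f g : MvPolynomial ι ℂ) (B : ℝ)
    (h : ∀ θ : ℝ, ∃ Q : MvPolynomial (ι ⊕ ι) ℂ, (gE Q).re ≤ B ∧ ∀ z,
      Real.sqrt (gradSq f (z ∘ Sum.inl)) * Real.sqrt (gradSq g (rotPt θ z)) ≤ (evalR z Q).re) :
    ‖gE (f * g) - gE f * gE g‖ ≤ 2 * B := by
  have hder : ∀ θ ∈ Set.Icc (0 : ℝ) (Real.pi / 2),
      HasDerivWithinAt (fun t => gE (fst' f * rot t g))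
        (-(Real.sin θ : ℂ) * ∑ j, gE (fst' (pderiv j f) * rot θ (pderiv j g)))
        (Set.Icc (0 : ℝ) (Real.pi / 2)) θ := fun θ _ =>
    (hasDerivAt_gE_fst'_rot f g θ).hasDerivWithinAt
  have hbd : ∀ θ ∈ Set.Ico (0 : ℝ) (Real.pi / 2),
      ‖-(Real.sin θ : ℂ) * ∑ j, gE (fst' (pderiv j f) * rot θ (pderiv j g))‖ ≤ B := fun θ _ => by
    obtain ⟨Q, hQB, hQ⟩ := h θ
    rw [norm_mul, norm_neg, Complex.norm_real]
    refine (mul_le_of_le_one_left (norm_nonneg _) (Real.abs_sin_le_one θ)).trans ?_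
    rw [← map_sum, gE_eq_integral]
    refine (norm_integral_le_integral_norm _).trans (le_trans ?_ hQB)
    rw [gE_eq_integral, show (∫ x, evalR x Q ∂γs (ι ⊕ ι)).re = ∫ x, (evalR x Q).re ∂γs (ι ⊕ ι) from
      (integral_re (integrable_evalR Q)).symm]
    refine integral_mono (integrable_evalR _).norm (integrable_evalR Q).re fun z => ?_
    refine le_trans ?_ (hQ z)
    simp only [map_sum, map_mul, evalR_fst', evalR_rot]
    refine (norm_sum_le _ _).trans ?_
    simp only [norm_mul]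
    exact Real.sum_mul_le_sqrt_mul_sqrt _ _ _
  have h1 := norm_image_sub_le_of_norm_deriv_le_segment' hder hbd (Real.pi / 2)
    ⟨by positivity, le_rfl⟩
  simp only [rot_pi_div_two, rot_zero, sub_zero, gE_fst'_mul_snd', ← map_mul, gE_fst'] at h1
  rw [norm_sub_rev] at h1
  have hB : 0 ≤ B := (norm_nonneg _).trans (hbd 0 ⟨le_rfl, by positivity⟩)
  refine h1.trans ?_
  rw [mul_comm]
  exact mul_le_mul_of_nonneg_right (by linarith [Real.pi_le_four]) hB

end

end Vale.Agent.P095.Amen.Random
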