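import Vale.Agent.P095.Amen.Random.Grad

/-!
# P095: expectations of products of polynomial matrices
-/

namespace Vale.Agent.P095.Amen.Random

open MvPolynomial Finset Matrix
open scoped Matrix.Norms.L2Operator

noncomputable section

section General

variable {ι : Type} [Fintype ι]

/-- The covariance. -/
def cov (f g : MvPolynomial ι ℂ) : ℂ := gE (f * g) - gE f * gE g

theorem cov_comm (f g : MvPolynomial ι ℂ) : cov f g = cov g f := by
  rw [cov, cov, mul_comm f, mul_comm (gE f)]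

theorem cov_sum_smul {K : Type} [Fintype K] (w : K → ℂ) (f : K → MvPolynomial ι ℂ)
    (g : MvPolynomial ι ℂ) : cov (∑ k, w k • f k) g = ∑ k, w k * cov (f k) g := by
  simp only [cov, Finset.sum_mul, smul_mul_assoc, map_sum, map_smul, smul_eq_mul, mul_sub,
    Finset.sum_sub_distrib, mul_assoc]

theorem norm_cov_sum_smul_le {K : Type} [Fintype K] (w : K → ℂ) (hw : ∀ k, ‖w k‖ ≤ 1)
    (f : K → MvPolynomial ι ℂ) (g : MvPolynomial ι ℂ) {κ : ℝ} (hf : ∀ k, ‖cov (f k) g‖ ≤ κ) :
    ‖cov (∑ k, w k • f k) g‖ ≤ Fintype.card K * κ := by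
  rw [cov_sum_smul, ← nsmul_eq_mul, ← Finset.card_univ]
  refine (norm_sum_le _ _).trans (Finset.sum_le_card_nsmul _ _ _ fun k _ => ?_)
  rw [norm_mul]
  exact (mul_le_of_le_one_left (norm_nonneg _) (hw k)).trans (hf k)

/-- The expectation of a product is the product of expectations, up to the covariances. -/
theorem norm_map_mul_le {I J L : Type} [Fintype I] [Fintype J] [Fintype L] [DecidableEq I]
    [DecidableEq J] [DecidableEq L] (P : Matrix I J (MvPolynomial ι ℂ))
    (Q : Matrix J L (MvPolynomial ι ℂ)) {κ : ℝ} (h : ∀ i j l, ‖cov (P i j) (Q j l)‖ ≤ κ) :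
    ‖(P * Q).map gE‖ ≤ ‖P.map gE‖ * ‖Q.map gE‖ +
      ((Fintype.card I * Fintype.card L * Fintype.card J : ℕ) : ℝ) * κ := by
  have hR : ‖(P * Q).map gE - P.map gE * Q.map gE‖ ≤
      ((Fintype.card I * Fintype.card L * Fintype.card J : ℕ) : ℝ) * κ := by
    refine (norm_le_sum_entries _).trans ?_
    have he : ∀ i l, ‖((P * Q).map gE - P.map gE * Q.map gE) i l‖ ≤ Fintype.card J * κ :=
      fun i l => by
        simp only [Matrix.sub_apply, Matrix.map_apply, Matrix.mul_apply, map_sum,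
          ← Finset.sum_sub_distrib, ← Finset.card_univ, ← nsmul_eq_mul]
        exact (norm_sum_le _ _).trans (Finset.sum_le_card_nsmul _ _ _ fun j _ => h i j l)
    refine (Finset.sum_le_sum fun i _ => Finset.sum_le_sum fun l _ => he i l).trans (le_of_eq ?_)
    simp only [Finset.sum_const, Finset.card_univ, nsmul_eq_mul]
    push_cast
    ring
  calc ‖(P * Q).map gE‖ = ‖P.map gE * Q.map gE + ((P * Q).map gE - P.map gE * Q.map gE)‖ := by
        rw [add_sub_cancel]
    _ ≤ _ := (norm_add_le _ _).trans (add_le_add (l2_opNorm_mul _ _) hR)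

end General

section Model

variable {m α β p o : Type} [Fintype m] [Fintype α] [Fintype β] [Fintype p] [Fintype o]
  [DecidableEq α] [DecidableEq β] [DecidableEq p] [DecidableEq o] [DecidableEq m]
  (c : m → Matrix β α ℂ)

omit [DecidableEq α] [DecidableEq β] [DecidableEq p] [DecidableEq o] [DecidableEq m] [Fintype α] in
theorem map_etaP (B : Matrix β β (GPoly m p o)) :
    (etaP c B).map gE = ∑ i, (c i)ᴴ * B.map gE * c i := by
  ext x y
  simp [etaP, liftC, Matrix.sum_apply, Matrix.mul_apply, ← smul_eq_C_mul, mul_comm _ (C _),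
    Finset.mul_sum, Finset.sum_mul]
  exact Finset.sum_congr rfl fun _ _ => Finset.sum_congr rfl fun _ _ =>
    Finset.sum_congr rfl fun _ _ => by ring

omit [DecidableEq α] [DecidableEq β] [DecidableEq p] [DecidableEq o] [DecidableEq m] [Fintype β] in
theorem map_etaP' (A : Matrix α α (GPoly m p o)) :
    (etaP' c A).map gE = ∑ i, c i * A.map gE * (c i)ᴴ := by
  ext x y
  simp [etaP', liftC, Matrix.sum_apply, Matrix.mul_apply, ← smul_eq_C_mul, mul_comm _ (C _),
    Finset.mul_sum, Finset.sum_mul]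
  exact Finset.sum_congr rfl fun _ _ => Finset.sum_congr rfl fun _ _ =>
    Finset.sum_congr rfl fun _ _ => by ring

omit [Fintype p] [Fintype o] [DecidableEq p] [DecidableEq o] in
/-- A conjugation by a family is bounded by the sum of the squares. -/
theorem norm_conj_sum_le (B : Matrix β β ℂ) :
    ‖∑ i, (c i)ᴴ * B * c i‖ ≤ ‖∑ i, (c i)ᴴ * c i‖ * ‖B‖ := by
  let V : Matrix (β × m) α ℂ := Matrix.of fun z y => c z.2 z.1 y
  have h1 : ∑ i, (c i)ᴴ * B * c i = Vᴴ * (tensorOne B : Matrix (β × m) (β × m) ℂ) * V := by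
    ext x y
    simp only [Matrix.sum_apply, Matrix.mul_apply, Fintype.sum_prod_type, tensorOne,
      conjTranspose_apply, Matrix.of_apply, V, mul_ite, mul_zero, Finset.sum_mul,
      Finset.sum_ite_eq', Finset.mem_univ, if_true]
    rw [Finset.sum_comm]
  have h2 : ‖∑ i, (c i)ᴴ * c i‖ = ‖V‖ * ‖V‖ := by
    rw [← l2_opNorm_conjTranspose_mul_self]
    congr 1
    ext x y
    simp [V, Matrix.sum_apply, Matrix.mul_apply, Fintype.sum_prod_type, Finset.sum_comm (γ := β)]
  rw [h1, h2]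
  calc _ ≤ ‖Vᴴ‖ * ‖(tensorOne B : Matrix (β × m) (β × m) ℂ)‖ * ‖V‖ :=
        (l2_opNorm_mul _ _).trans (mul_le_mul_of_nonneg_right (l2_opNorm_mul _ _) (norm_nonneg _))
    _ ≤ ‖V‖ * ‖B‖ * ‖V‖ := by
        rw [l2_opNorm_conjTranspose]
        gcongr
        exact norm_tensorOne_le B
    _ = _ := by ring

omit [Fintype p] [Fintype o] [DecidableEq p] [DecidableEq o] in
theorem norm_conj_sum'_le (A : Matrix α α ℂ) :
    ‖∑ i, c i * A * (c i)ᴴ‖ ≤ ‖∑ i, c i * (c i)ᴴ‖ * ‖A‖ := by
  simpa only [conjTranspose_conjTranspose] using norm_conj_sum_le (fun i => (c i)ᴴ) A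

omit [Fintype p] [Fintype o] [DecidableEq p] [DecidableEq o] in
theorem norm_coeff_le (hc : ‖colSum c‖ ≤ 1) (i : m) (x : β) (y : α) : ‖c i x y‖ ≤ 1 := by
  let V : Matrix (β × m) α ℂ := Matrix.of fun z y => c z.2 z.1 y
  have h : ‖V‖ * ‖V‖ ≤ 1 := by
    rw [← l2_opNorm_conjTranspose_mul_self]
    refine le_trans (le_of_eq (congrArg _ ?_)) hc
    ext a b
    simp [V, colSum, Matrix.sum_apply, Matrix.mul_apply, Fintype.sum_prod_type,
      Finset.sum_comm (γ := β)]
  have h2 : ‖c i x y‖ ≤ ‖V‖ := norm_entry_le V (x, i) y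
  nlinarith [norm_nonneg V]

omit [DecidableEq α] [DecidableEq β] [DecidableEq p] [DecidableEq o] [DecidableEq m] [Fintype α] in
theorem norm_cov_etaP_le (hc : ∀ i x y, ‖c i x y‖ ≤ 1) (B : Matrix β β (GPoly m p o))
    (g : GPoly m p o) {κ : ℝ} (h : ∀ x y, ‖cov (B x y) g‖ ≤ κ) (x y : α) :
    ‖cov (etaP c B x y) g‖ ≤ Fintype.card (m × β × β) * κ := by
  have e : etaP c B x y = ∑ k : m × β × β,
      (star (c k.1 k.2.1 x) * c k.1 k.2.2 y) • B k.2.1 k.2.2 := by
    simp only [etaP, liftC, Matrix.sum_apply, Matrix.mul_apply, Matrix.of_apply,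
      conjTranspose_apply, Fintype.sum_prod_type, Finset.sum_mul, smul_eq_C_mul, map_mul]
    refine Finset.sum_congr rfl fun i _ => ?_
    rw [Finset.sum_comm]
    exact Finset.sum_congr rfl fun a _ => Finset.sum_congr rfl fun b _ => by ring
  rw [e]
  refine norm_cov_sum_smul_le _ (fun k => ?_) _ g fun k => h _ _
  rw [norm_mul, norm_star]
  exact mul_le_one₀ (hc _ _ _) (norm_nonneg _) (hc _ _ _)

omit [DecidableEq α] [DecidableEq β] [DecidableEq p] [DecidableEq o] [DecidableEq m] [Fintype β] in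
theorem norm_cov_etaP'_le (hc : ∀ i x y, ‖c i x y‖ ≤ 1) (A : Matrix α α (GPoly m p o))
    (g : GPoly m p o) {κ : ℝ} (h : ∀ x y, ‖cov (A x y) g‖ ≤ κ) (x y : β) :
    ‖cov (etaP' c A x y) g‖ ≤ Fintype.card (m × α × α) * κ := by
  have e : etaP' c A x y = ∑ k : m × α × α,
      (c k.1 x k.2.1 * star (c k.1 y k.2.2)) • A k.2.1 k.2.2 := by
    simp only [etaP', liftC, Matrix.sum_apply, Matrix.mul_apply, Matrix.of_apply,
      conjTranspose_apply, Fintype.sum_prod_type, Finset.sum_mul, smul_eq_C_mul, map_mul]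
    refine Finset.sum_congr rfl fun i _ => ?_
    rw [Finset.sum_comm]
    exact Finset.sum_congr rfl fun a _ => Finset.sum_congr rfl fun b _ => by ring
  rw [e]
  refine norm_cov_sum_smul_le _ (fun k => ?_) _ g fun k => h _ _
  rw [norm_mul, norm_star]
  exact mul_le_one₀ (hc _ _ _) (norm_nonneg _) (hc _ _ _)

end Model

end

end Vale.Agent.P095.Amen.Random
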