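import Vale.Agent.P095.Amen.Random.Recursion
import Vale.Agent.P095.Amen.Random.MatNorm

/-!
# P095: the model at a point
-/

namespace Vale.Agent.P095.Amen.Random

open MvPolynomial Finset Matrix
open scoped Matrix.Norms.L2Operator ComplexConjugate

noncomputable section

variable {m α β p o : Type} [Fintype m] [Fintype α] [Fintype β] [Fintype p] [Fintype o]
  [DecidableEq α] [DecidableEq β] [DecidableEq p] [DecidableEq o]
  (c : m → Matrix β α ℂ) (z : GIdx m p o → ℝ)

/-- `S` at a point. -/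
def eS : Matrix (β × o) (α × p) ℂ := (gS (p := p) (o := o) c).map (evalR z)

/-- `W` at a point. -/
def eW : Matrix (α × p) (α × p) ℂ := (gW (p := p) (o := o) c).map (evalR z)

omit [Fintype α] [Fintype β] [Fintype m] [Fintype p] [DecidableEq α] [DecidableEq β] [DecidableEq p]
  [DecidableEq o] in
theorem evalR_gYc (v : m × o × p) : evalR z (gYc v) = conj (evalR z (gY v)) := by
  simp [gYc, gY, evalR, sca, Complex.conj_ofReal, smul_eq_C_mul, sub_eq_add_neg]

omit [Fintype α] [Fintype β] [Fintype p] [DecidableEq α] [DecidableEq β] [DecidableEq p] [DecidableEq o] in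
theorem map_gSc : (gSc (p := p) (o := o) c).map (evalR z) = (eS c z)ᴴ := by
  ext y x
  simp [eS, gS, gSc, conjTranspose_apply, smul_eq_C_mul, evalR_gYc, map_sum]
  simp [evalR]

omit [Fintype α] [Fintype p] [DecidableEq α] [DecidableEq β] [DecidableEq o] in
theorem eW_eq : eW c z = (eS c z)ᴴ * eS c z - tensorOne (colSum c) := by
  rw [eW, gW, Matrix.map_sub (f := evalR z) (hf := map_sub _), Matrix.map_mul, map_gSc]
  congr 1
  ext x y
  simp only [map_apply, of_apply, tensorOne]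
  split_ifs <;> simp [evalR]

omit [Fintype α] [DecidableEq α] [DecidableEq β] in
theorem colSum_isHermitian : (colSum c).IsHermitian := by
  simp [IsHermitian, colSum, conjTranspose_sum, conjTranspose_mul]

omit [Fintype α] [Fintype p] [DecidableEq α] [DecidableEq β] [DecidableEq o] in
theorem eW_isHermitian : (eW c z).IsHermitian := by
  rw [eW_eq]
  refine (isHermitian_conjTranspose_mul_self _).sub ?_
  ext x y
  have h := (colSum_isHermitian c).apply x.1 y.1
  rcases eq_or_ne x.2 y.2 with e | e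
  · simp [tensorOne, conjTranspose_apply, e, h]
  · simp [tensorOne, conjTranspose_apply, e, Ne.symm e]

omit [DecidableEq β] [DecidableEq o] in
theorem map_gW_pow (n : ℕ) :
    ((gW (p := p) (o := o) c) ^ n).map (evalR z) = eW c z ^ n :=
  map_pow (evalR z).mapMatrix _ n

omit [DecidableEq β] [DecidableEq o] in
theorem map_gM (n : ℕ) :
    (gM (p := p) (o := o) c n).map (evalR z) = eS c z * eW c z ^ n * (eS c z)ᴴ := by
  rw [gM, gT, Matrix.map_mul, Matrix.map_mul, map_gW_pow, map_gSc]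
  rfl

omit [DecidableEq β] [DecidableEq o] in
theorem norm_eS_sq_le (hc : ‖colSum c‖ ≤ 1) : ‖eS c z‖ ^ 2 ≤ 1 + ‖eW c z‖ := by
  have h : (eS c z)ᴴ * eS c z = eW c z + tensorOne (colSum c) := by rw [eW_eq, sub_add_cancel]
  rw [sq, ← l2_opNorm_conjTranspose_mul_self, h]
  exact (norm_add_le _ _).trans (by linarith [norm_tensorOne_le (p := p) (colSum c)])

omit [DecidableEq β] [DecidableEq o] in
theorem norm_eW_pow_le (n : ℕ) : ‖eW c z ^ n‖ ≤ ‖eW c z‖ ^ n := by
  rcases Nat.eq_zero_or_pos n with rfl | hn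
  · rcases isEmpty_or_nonempty (α × p) with h | h
    · simp [Subsingleton.elim (1 : Matrix (α × p) (α × p) ℂ) 0]
    · simp
  · exact norm_pow_le' _ hn

omit [Fintype α] [Fintype β] [Fintype p] [Fintype o] [DecidableEq α] [DecidableEq β] [DecidableEq p]
  [DecidableEq o] [Fintype m] in
/-- For a self-adjoint element the norm is multiplicative on powers. -/
theorem norm_pow_of_isSelfAdjoint {R : Type} [NormedRing R] [StarRing R] [CStarRing R] {a : R}
    (h : IsSelfAdjoint a) {n : ℕ} : ‖a ^ (n + 1)‖ = ‖a‖ ^ (n + 1) := by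
  refine le_antisymm (norm_pow_le' a n.succ_pos) ?_
  obtain ⟨k, hk⟩ : ∃ k, n + 1 ≤ 2 ^ k := ⟨n + 1, Nat.lt_two_pow_self.le⟩
  obtain ⟨e, he⟩ := Nat.exists_eq_add_of_le hk
  have h2 : ‖a ^ 2 ^ k‖ = ‖a‖ ^ 2 ^ k := congrArg NNReal.toReal (h.nnnorm_pow_two_pow k)
  rcases eq_or_lt_of_le (norm_nonneg a) with h0 | h0
  · rw [← h0, zero_pow n.succ_ne_zero]
    exact norm_nonneg _
  rcases Nat.eq_zero_or_pos e with rfl | hepos
  · rw [he, add_zero] at h2; exact h2.ge
  have h3 : ‖a‖ ^ (n + 1) * ‖a‖ ^ e ≤ ‖a ^ (n + 1)‖ * ‖a‖ ^ e := by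
    rw [← pow_add, ← he, ← h2, he, pow_add]
    exact (norm_mul_le _ _).trans (mul_le_mul_of_nonneg_left (norm_pow_le' a hepos) (norm_nonneg _))
  exact le_of_mul_le_mul_right h3 (pow_pos h0 e)

omit [DecidableEq β] [DecidableEq o] in
/-- An even power of the norm is at most the trace. -/
theorem norm_eW_pow_le_trace (q : ℕ) :
    ‖eW c z‖ ^ (2 * (q + 1)) ≤ (Matrix.trace (eW c z ^ (2 * (q + 1)))).re := by
  have hH : IsSelfAdjoint (eW c z) := (eW_isHermitian c z).eq
  have h1 : ‖eW c z‖ ^ (2 * (q + 1)) = ‖eW c z ^ (q + 1)‖ ^ 2 := by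
    rw [norm_pow_of_isSelfAdjoint hH, ← pow_mul, mul_comm]
  have h2 : (Matrix.trace (eW c z ^ (2 * (q + 1)))).re = ∑ i, ∑ j, ‖(eW c z ^ (q + 1)) i j‖ ^ 2 := by
    have hs : (eW c z ^ (q + 1))ᴴ = eW c z ^ (q + 1) := ((eW_isHermitian c z).pow _).eq
    rw [two_mul, pow_add]
    nth_rw 1 [← hs]
    simp only [Matrix.trace, Matrix.diag, Matrix.mul_apply, conjTranspose_apply, Complex.re_sum,
      Complex.star_def, ← Complex.normSq_eq_conj_mul_self, Complex.ofReal_re, Complex.sq_norm]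
    exact Finset.sum_comm
  rw [h1, h2]
  calc ‖eW c z ^ (q + 1)‖ ^ 2 ≤ Real.sqrt (∑ i, ∑ j, ‖(eW c z ^ (q + 1)) i j‖ ^ 2) ^ 2 := by
        refine pow_le_pow_left₀ (norm_nonneg _) (norm_le_of_sum_sq (Real.sqrt_nonneg _) fun x => ?_) 2
        rw [Real.sq_sqrt (Finset.sum_nonneg fun i _ => Finset.sum_nonneg fun j _ => sq_nonneg _),
          Finset.sum_mul]
        refine Finset.sum_le_sum fun i _ => ?_
        calc ‖(eW c z ^ (q + 1) *ᵥ x) i‖ ^ 2
            ≤ (∑ j, ‖(eW c z ^ (q + 1)) i j‖ * ‖x j‖) ^ 2 :=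
              pow_le_pow_left₀ (norm_nonneg _)
                ((norm_sum_le _ _).trans (le_of_eq (Finset.sum_congr rfl fun j _ => norm_mul _ _))) 2
          _ ≤ _ := Finset.sum_mul_sq_le_sq_mul_sq _ _ _
    _ = _ := Real.sq_sqrt (Finset.sum_nonneg fun i _ => Finset.sum_nonneg fun j _ => sq_nonneg _)

end

end Vale.Agent.P095.Amen.Random
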