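import Mathlib

/-!
# P095: Gaussian expectation of polynomials

`gE p` is the expectation of the polynomial `p` in independent standard real Gaussian variables,
given by moments; `gE_X_mul` is integration by parts and `gE_eq_integral` gives positivity.
-/

namespace Vale.Agent.P095.Amen.Random

open MeasureTheory ProbabilityTheory MvPolynomial Finset

noncomputable section

/-- The law of one variable. -/
def γ : Measure ℝ := gaussianReal 0 1

instance : IsProbabilityMeasure γ := inferInstanceAs (IsProbabilityMeasure (gaussianReal 0 1))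

theorem integrable_pow_γ (n : ℕ) : Integrable (fun x : ℝ => x ^ n) γ := by
  rcases Nat.eq_zero_or_pos n with rfl | hn
  · simp
  · have h := (memLp_id_gaussianReal (μ := 0) (v := 1) (n : NNReal)).integrable_norm_pow hn.ne'
    exact h.congr' (by fun_prop) (Filter.Eventually.of_forall fun x => by simp)

/-- The moments. -/
def mom (n : ℕ) : ℝ := ∫ x, x ^ n ∂γ

theorem mom_zero : mom 0 = 1 := by simp [mom]

theorem mom_one : mom 1 = 0 := by
  simp [mom, γ, integral_id_gaussianReal]

theorem integrable_pow_mul_exp (n : ℕ) :
    Integrable fun x : ℝ => x ^ n * Real.exp (-x ^ 2 / 2) := by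
  have h := integrable_rpow_mul_exp_neg_mul_sq (b := 1 / 2) (by norm_num) (s := (n : ℝ))
    (lt_of_lt_of_le (by norm_num) (Nat.cast_nonneg n))
  refine h.congr (Filter.Eventually.of_forall fun x => ?_)
  simp only [Real.rpow_natCast]
  congr 2
  ring

theorem mom_eq (n : ℕ) :
    mom n = (Real.sqrt (2 * Real.pi))⁻¹ * ∫ x : ℝ, x ^ n * Real.exp (-x ^ 2 / 2) := by
  rw [mom, γ, integral_gaussianReal_eq_integral_smul one_ne_zero, ← integral_const_mul]
  refine integral_congr_ae (Filter.Eventually.of_forall fun x => ?_)
  simp only [gaussianPDFReal, smul_eq_mul, NNReal.coe_one, mul_one, sub_zero]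
  ring

theorem mom_add_two (n : ℕ) : mom (n + 2) = (n + 1) * mom n := by
  have h := integral_mul_deriv_eq_deriv_mul_of_integrable
    (u := fun x : ℝ => x ^ (n + 1)) (u' := fun x : ℝ => (n + 1 : ℝ) * x ^ n)
    (v := fun x : ℝ => -Real.exp (-x ^ 2 / 2)) (v' := fun x : ℝ => x * Real.exp (-x ^ 2 / 2))
    (fun x _ => by simpa using hasDerivAt_pow (n + 1) x)
    (fun x _ => by
      have := ((((hasDerivAt_id x).fun_pow 2).neg.div_const 2).exp).neg
      refine this.congr_deriv ?_
      simp
      ring)
    ((integrable_pow_mul_exp (n + 2)).congr (Filter.Eventually.of_forall fun x => by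
      simp only [Pi.mul_apply]; ring))
    ((((integrable_pow_mul_exp n).const_mul (n + 1 : ℝ)).neg).congr
      (Filter.Eventually.of_forall fun x => by simp only [Pi.mul_apply, Pi.neg_apply]; ring))
    ((integrable_pow_mul_exp (n + 1)).neg.congr
      (Filter.Eventually.of_forall fun x => by simp only [Pi.mul_apply, Pi.neg_apply]; ring))
  rw [show (fun x : ℝ => (n + 1 : ℝ) * x ^ n * -Real.exp (-x ^ 2 / 2)) = fun x =>
      -((n + 1 : ℝ) * (x ^ n * Real.exp (-x ^ 2 / 2))) from funext fun x => by ring,
    integral_neg, neg_neg, integral_const_mul] at h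
  simp only [mom_eq]
  rw [mul_left_comm]
  congr 1
  rw [← h]
  exact integral_congr_ae (Filter.Eventually.of_forall fun x => by ring)

theorem mom_succ (n : ℕ) : mom (n + 1) = n * mom (n - 1) := by
  rcases n with - | n
  · simp [mom_one]
  · simp [mom_add_two n]

variable {ι : Type} [Fintype ι]

/-- The law of the variables. -/
def γs (ι : Type) [Fintype ι] : Measure (ι → ℝ) := Measure.pi fun _ => γ

instance : IsProbabilityMeasure (γs ι) :=
  inferInstanceAs (IsProbabilityMeasure (Measure.pi fun _ : ι => γ))

/-- The moment of a monomial. -/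
def momMono (a : ι →₀ ℕ) : ℂ := ∏ i, (mom (a i) : ℂ)

/-- The expectation of a polynomial. -/
def gE : MvPolynomial ι ℂ →ₗ[ℂ] ℂ := (MvPolynomial.basisMonomials ι ℂ).constr ℂ momMono

theorem gE_monomial (a : ι →₀ ℕ) (c : ℂ) : gE (monomial a c) = c * momMono a := by
  have h : monomial a c = c • (MvPolynomial.basisMonomials ι ℂ a) := by
    simp [MvPolynomial.coe_basisMonomials, smul_monomial]
  rw [h, map_smul, gE, Module.Basis.constr_basis, smul_eq_mul]

@[simp] theorem gE_C (c : ℂ) : gE (C c : MvPolynomial ι ℂ) = c := by
  rw [C_apply, gE_monomial]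
  simp [momMono, mom_zero]

@[simp] theorem gE_one : gE (1 : MvPolynomial ι ℂ) = 1 := by simpa using gE_C (ι := ι) 1

/-- Integration by parts. -/
theorem gE_X_mul (i : ι) (p : MvPolynomial ι ℂ) : gE (X i * p) = gE (pderiv i p) := by
  classical
  induction p using MvPolynomial.induction_on' with
  | monomial a c =>
    rw [X, monomial_mul, one_mul, pderiv_monomial, gE_monomial, gE_monomial, momMono, momMono,
      Fintype.prod_eq_mul_prod_compl i, Fintype.prod_eq_mul_prod_compl i]
    have h1 : (Finsupp.single i 1 + a : ι →₀ ℕ) i = a i + 1 := by simp [add_comm]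
    have h2 : (a - Finsupp.single i 1 : ι →₀ ℕ) i = a i - 1 := by simp
    rw [h1, h2, mom_succ, Complex.ofReal_mul, Complex.ofReal_natCast]
    rw [Finset.prod_congr rfl fun j hj => ?_]
    · ring
    · have hji : i ≠ j := fun h => by simp [h] at hj
      simp [hji]
  | add p q hp hq => rw [mul_add, map_add, map_add, map_add, hp, hq]

/-- The point in `ℂ`. -/
def evalR (x : ι → ℝ) : MvPolynomial ι ℂ →+* ℂ := eval fun i => (x i : ℂ)

theorem integrable_evalR (p : MvPolynomial ι ℂ) : Integrable (fun x => evalR x p) (γs ι) := by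
  induction p using MvPolynomial.induction_on' with
  | monomial a c =>
    simp only [evalR, eval_monomial, Finsupp.prod_pow]
    have h1 : ∀ i : ι, Integrable (fun x : ℝ => (x : ℂ) ^ a i) γ := fun i =>
      (integrable_pow_γ (a i)).ofReal.congr (Filter.Eventually.of_forall fun x => by simp)
    exact (Integrable.fintype_prod (f := fun i (x : ℝ) => (x : ℂ) ^ a i) h1).const_mul c
  | add p q hp hq =>
    refine (hp.add hq).congr (Filter.Eventually.of_forall fun x => ?_)
    simp only [Pi.add_apply, map_add]

theorem gE_eq_integral (p : MvPolynomial ι ℂ) : gE p = ∫ x, evalR x p ∂γs ι := by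
  induction p using MvPolynomial.induction_on' with
  | monomial a c =>
    simp only [gE_monomial, evalR, eval_monomial, Finsupp.prod_pow, integral_const_mul, momMono]
    congr 1
    have h := integral_fintype_prod_eq_prod (μ := fun _ : ι => γ)
      (f := fun i (x : ℝ) => ((x : ℂ) ^ a i))
    rw [γs, h]
    refine Finset.prod_congr rfl fun i _ => ?_
    simp [mom, ← Complex.ofReal_pow, integral_complex_ofReal]
  | add p q hp hq =>
    simp only [map_add, hp, hq]
    exact (integral_add (integrable_evalR p) (integrable_evalR q)).symm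

/-- Pointwise bounds pass to expectations. -/
theorem re_gE_mono {p q : MvPolynomial ι ℂ} (h : ∀ x, (evalR x p).re ≤ (evalR x q).re) :
    (gE p).re ≤ (gE q).re := by
  rw [gE_eq_integral, gE_eq_integral]
  have hre : ∀ r : MvPolynomial ι ℂ, (∫ x, evalR x r ∂γs ι).re = ∫ x, (evalR x r).re ∂γs ι :=
    fun r => (integral_re (integrable_evalR r)).symm
  rw [hre, hre]
  exact integral_mono (integrable_evalR p).re (integrable_evalR q).re h

end

end Vale.Agent.P095.Amen.Random
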