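import Vale.Agent.P095.Amen.Random.Eval
import Vale.Agent.P095.Amen.Random.Cov

/-!
# P095: gradients of the partial traces
-/

namespace Vale.Agent.P095.Amen.Random

open MvPolynomial Finset Matrix
open scoped Matrix.Norms.L2Operator

noncomputable section

variable {m α β p o : Type} [Fintype m] [Fintype α] [Fintype β] [Fintype p] [Fintype o]
  [DecidableEq α] [DecidableEq β] [DecidableEq p] [DecidableEq o] [DecidableEq m] [Nonempty o]
  (c : m → Matrix β α ℂ) (z : GIdx m p o → ℝ)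

omit [DecidableEq m] [DecidableEq p] [DecidableEq o] in
theorem gradSq_eq (f : GPoly m p o) : gradSq f z = (Fintype.card o : ℝ) *
    ((∑ v, ‖evalR z (gD v f)‖ ^ 2) + ∑ v, ‖evalR z (gDc v f)‖ ^ 2) := by
  rw [gradSq, ← Finset.sum_add_distrib, Finset.mul_sum, Fintype.sum_prod_type]
  refine Finset.sum_congr rfl fun v _ => ?_
  have hN : (0 : ℝ) < Fintype.card o := by exact_mod_cast Fintype.card_pos
  simp only [gD, gDc, Derivation.smul_apply, Derivation.sub_apply, Derivation.add_apply,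
    Fin.sum_univ_two, smul_eq_C_mul, map_mul, map_sub, map_add]
  simp only [evalR, eval_C, sca, Complex.sq_norm, Complex.normSq_apply]
  have hs : (Real.sqrt (2 * Fintype.card o))⁻¹ * (Real.sqrt (2 * Fintype.card o))⁻¹ *
      (2 * Fintype.card o) = 1 := by
    rw [← mul_inv, Real.mul_self_sqrt (by positivity), inv_mul_cancel₀ (by positivity)]
  simp only [Complex.mul_re, Complex.mul_im, Complex.I_re, Complex.I_im, Complex.ofReal_re,
    Complex.ofReal_im, Complex.add_re, Complex.add_im, Complex.sub_re, Complex.sub_im]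
  linear_combination (-1 : ℝ) *
    ((eval (fun i => (z i : ℂ)) (pderiv (v, 0) f)).re ^ 2 +
      (eval (fun i => (z i : ℂ)) (pderiv (v, 0) f)).im ^ 2 +
      (eval (fun i => (z i : ℂ)) (pderiv (v, 1) f)).re ^ 2 +
      (eval (fun i => (z i : ℂ)) (pderiv (v, 1) f)).im ^ 2) * hs

variable (hc : ∀ i x y, ‖c i x y‖ ≤ 1) {ξ ν : Type} [Fintype ξ] [DecidableEq ξ] [Fintype ν]
  [DecidableEq ν] (T : Finset ℕ) (x y : ξ) (r : ℂ) {Φ : ℝ}

include hc

omit [DecidableEq m] [Nonempty o] in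
/-- The bound for derivatives through `S`. -/
theorem sum_gD_le (L : ℕ → Matrix (ξ × ν) (β × o) (GPoly m p o))
    (R : ℕ → Matrix (α × p) (ξ × ν) (GPoly m p o))
    (hΦ : ∀ u ∈ T, ‖(L u).map (evalR z)‖ * ‖(R u).map (evalR z)‖ ≤ Φ) :
    ∑ v : m × o × p, ‖evalR z (r • ∑ u ∈ T, ∑ e : ν,
      (L u * gUnit c v * R u : Matrix (ξ × ν) (ξ × ν) (GPoly m p o)) (x, e) (y, e))‖ ^ 2 ≤ Fintype.card m * (T.card : ℝ) ^ 2 *
      (‖r‖ * (Fintype.card o : ℝ)⁻¹ * (Fintype.card β * Fintype.card α : ℕ)) ^ 2 *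
      Fintype.card p * Φ ^ 2 := by
  set q : ℕ → (m × o × p) → ℂ := fun u v => ∑ x₁, ∑ y₁, c v.1 x₁ y₁ *
    ∑ e, (L u).map (evalR z) (x, e) (x₁, v.2.1) * (R u).map (evalR z) (y₁, v.2.2) (y, e) with hq
  have hev : ∀ v : m × o × p, evalR z (r • ∑ u ∈ T, ∑ e : ν,
      (L u * gUnit c v * R u : Matrix (ξ × ν) (ξ × ν) (GPoly m p o)) (x, e) (y, e)) = r * (Fintype.card o : ℂ)⁻¹ * ∑ u ∈ T, q u v := fun v => by
    rw [smul_eq_C_mul, map_mul, map_sum, show evalR z (C r) = r by simp [evalR], mul_assoc]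
    congr 1
    rw [Finset.mul_sum]
    refine Finset.sum_congr rfl fun u _ => ?_
    simp only [map_sum, mul_gUnit_mul_apply, smul_eq_C_mul, map_mul, hq, Finset.mul_sum,
      Matrix.map_apply]
    rw [Finset.sum_comm]
    refine Finset.sum_congr rfl fun x₁ _ => ?_
    rw [Finset.sum_comm]
    refine Finset.sum_congr rfl fun y₁ _ => Finset.sum_congr rfl fun e _ => ?_
    simp [evalR]
    ring
  have hone : ∀ u ∈ T, ∑ v, ‖q u v‖ ^ 2 ≤ Fintype.card m *
      (((Fintype.card β * Fintype.card α : ℕ) : ℝ) ^ 2 * Fintype.card p * Φ ^ 2) := fun u hu => by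
    rw [Fintype.sum_prod_type]
    refine (Finset.sum_le_sum fun i _ => ?_).trans (le_of_eq (b := _)
      (by rw [Finset.sum_const, Finset.card_univ, nsmul_eq_mul]))
    rw [Fintype.sum_prod_type]
    refine (sum_sq_contract_le ((L u).map (evalR z)) ((R u).map (evalR z)) (c i) (hc i) x y).trans ?_
    exact mul_le_mul_of_nonneg_left (pow_le_pow_left₀ (by positivity) (hΦ u hu) 2) (by positivity)
  calc _ ≤ ∑ v, (‖r‖ * (Fintype.card o : ℝ)⁻¹) ^ 2 * ((T.card : ℝ) * ∑ u ∈ T, ‖q u v‖ ^ 2) := by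
        refine Finset.sum_le_sum fun v _ => ?_
        rw [hev, norm_mul, mul_pow, norm_mul, norm_inv, Complex.norm_natCast]
        refine mul_le_mul_of_nonneg_left ?_ (sq_nonneg _)
        exact (pow_le_pow_left₀ (norm_nonneg _) (norm_sum_le _ _) 2).trans sq_sum_le_card_mul_sum_sq
    _ = (‖r‖ * (Fintype.card o : ℝ)⁻¹) ^ 2 * ((T.card : ℝ) * ∑ u ∈ T, ∑ v, ‖q u v‖ ^ 2) := by
        rw [← Finset.mul_sum, ← Finset.mul_sum, Finset.sum_comm]
    _ ≤ (‖r‖ * (Fintype.card o : ℝ)⁻¹) ^ 2 * ((T.card : ℝ) * ∑ _u ∈ T, Fintype.card m *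
          (((Fintype.card β * Fintype.card α : ℕ) : ℝ) ^ 2 * Fintype.card p * Φ ^ 2)) := by
        gcongr with u hu; exact hone u hu
    _ = _ := by rw [Finset.sum_const, nsmul_eq_mul]; ring

omit [DecidableEq m] [Nonempty o] in
/-- The bound for derivatives through `S*`. -/
theorem sum_gDc_le (hop : Fintype.card o ≤ Fintype.card p)
    (L : ℕ → Matrix (ξ × ν) (α × p) (GPoly m p o))
    (R : ℕ → Matrix (β × o) (ξ × ν) (GPoly m p o))
    (hΦ : ∀ u ∈ T, ‖(L u).map (evalR z)‖ * ‖(R u).map (evalR z)‖ ≤ Φ) :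
    ∑ v : m × o × p, ‖evalR z (r • ∑ u ∈ T, ∑ e : ν,
      (L u * gUnitC c v * R u : Matrix (ξ × ν) (ξ × ν) (GPoly m p o)) (x, e) (y, e))‖ ^ 2 ≤ Fintype.card m * (T.card : ℝ) ^ 2 *
      (‖r‖ * (Fintype.card o : ℝ)⁻¹ * (Fintype.card β * Fintype.card α : ℕ)) ^ 2 *
      Fintype.card p * Φ ^ 2 := by
  set q : ℕ → (m × o × p) → ℂ := fun u v => ∑ y₁, ∑ x₁, star (c v.1 x₁ y₁) *
    ∑ e, (L u).map (evalR z) (x, e) (y₁, v.2.2) * (R u).map (evalR z) (x₁, v.2.1) (y, e) with hq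
  have hev : ∀ v : m × o × p, evalR z (r • ∑ u ∈ T, ∑ e : ν,
      (L u * gUnitC c v * R u : Matrix (ξ × ν) (ξ × ν) (GPoly m p o)) (x, e) (y, e)) = r * (Fintype.card o : ℂ)⁻¹ * ∑ u ∈ T, q u v := fun v => by
    rw [smul_eq_C_mul, map_mul, map_sum, show evalR z (C r) = r by simp [evalR], mul_assoc]
    congr 1
    rw [Finset.mul_sum]
    refine Finset.sum_congr rfl fun u _ => ?_
    simp only [map_sum, mul_gUnitC_mul_apply, smul_eq_C_mul, map_mul, hq, Finset.mul_sum,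
      Matrix.map_apply]
    rw [Finset.sum_comm]
    conv_rhs => rw [Finset.sum_comm]
    refine Finset.sum_congr rfl fun x₁ _ => ?_
    rw [Finset.sum_comm]
    refine Finset.sum_congr rfl fun y₁ _ => Finset.sum_congr rfl fun e _ => ?_
    simp [evalR]
    ring
  have hone : ∀ u ∈ T, ∑ v, ‖q u v‖ ^ 2 ≤ Fintype.card m *
      (((Fintype.card β * Fintype.card α : ℕ) : ℝ) ^ 2 * Fintype.card p * Φ ^ 2) := fun u hu => by
    rw [Fintype.sum_prod_type]
    refine (Finset.sum_le_sum fun i _ => ?_).trans (le_of_eq (b := _)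
      (by rw [Finset.sum_const, Finset.card_univ, nsmul_eq_mul]))
    rw [Fintype.sum_prod_type, Finset.sum_comm]
    refine (sum_sq_contract_le ((L u).map (evalR z)) ((R u).map (evalR z))
      (fun y₁ x₁ => star (c i x₁ y₁)) (fun y₁ x₁ => by rw [norm_star]; exact hc i x₁ y₁) x y).trans ?_
    rw [mul_comm (Fintype.card α)]
    exact mul_le_mul (mul_le_mul_of_nonneg_left (Nat.cast_le.2 hop) (sq_nonneg _))
      (pow_le_pow_left₀ (by positivity) (hΦ u hu) 2) (by positivity) (by positivity)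
  calc _ ≤ ∑ v, (‖r‖ * (Fintype.card o : ℝ)⁻¹) ^ 2 * ((T.card : ℝ) * ∑ u ∈ T, ‖q u v‖ ^ 2) := by
        refine Finset.sum_le_sum fun v _ => ?_
        rw [hev, norm_mul, mul_pow, norm_mul, norm_inv, Complex.norm_natCast]
        refine mul_le_mul_of_nonneg_left ?_ (sq_nonneg _)
        exact (pow_le_pow_left₀ (norm_nonneg _) (norm_sum_le _ _) 2).trans sq_sum_le_card_mul_sum_sq
    _ = (‖r‖ * (Fintype.card o : ℝ)⁻¹) ^ 2 * ((T.card : ℝ) * ∑ u ∈ T, ∑ v, ‖q u v‖ ^ 2) := by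
        rw [← Finset.mul_sum, ← Finset.mul_sum, Finset.sum_comm]
    _ ≤ (‖r‖ * (Fintype.card o : ℝ)⁻¹) ^ 2 * ((T.card : ℝ) * ∑ _u ∈ T, Fintype.card m *
          (((Fintype.card β * Fintype.card α : ℕ) : ℝ) ^ 2 * Fintype.card p * Φ ^ 2)) := by
        gcongr with u hu; exact hone u hu
    _ = _ := by rw [Finset.sum_const, nsmul_eq_mul]; ring

/-- The gradient of `A n`. -/
theorem gradSq_gA_le (hop : Fintype.card o ≤ Fintype.card p) [Nonempty p] (n : ℕ) (x y : α) :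
    gradSq (gA (p := p) (o := o) c n x y) z ≤ 2 * Fintype.card m * (n : ℝ) ^ 2 *
      ((Fintype.card β * Fintype.card α : ℕ) : ℝ) ^ 2 *
      ((Fintype.card o : ℝ) * Fintype.card p)⁻¹ * (‖eW c z‖ ^ (n - 1) * ‖eS c z‖) ^ 2 := by
  have hW : ∀ k, ‖(((gW (p := p) (o := o) c) ^ k).map (evalR z))‖ ≤ ‖eW c z‖ ^ k := fun k => by
    rw [map_gW_pow]; exact norm_eW_pow_le c z k
  have hd : ∀ (d : Derivation ℂ (GPoly m p o) (GPoly m p o)),
      d (gA (p := p) (o := o) c n x y) = (Fintype.card p : ℂ)⁻¹ • ∑ u ∈ range n, ∑ e,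
        ((gW (p := p) (o := o) c) ^ u * (gW (p := p) (o := o) c).map d *
          (gW (p := p) (o := o) c) ^ (n - 1 - u)) (x, e) (y, e) := fun d => by
    simp only [gA, Matrix.of_apply, Derivation.map_smul, map_sum]
    congr 1
    rw [Finset.sum_comm]
    refine Finset.sum_congr rfl fun e _ => ?_
    rw [← Matrix.map_apply (f := d), map_pow_deriv, Matrix.sum_apply]
  have h1 := sum_gD_le c z hc (range n) x y (Fintype.card p : ℂ)⁻¹
    (fun u => (gW (p := p) (o := o) c) ^ u * gSc (p := p) (o := o) c)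
    (fun u => (gW (p := p) (o := o) c) ^ (n - 1 - u))
    (Φ := ‖eW c z‖ ^ (n - 1) * ‖eS c z‖) (fun u hu => by
      rw [Matrix.map_mul, map_gSc, show n - 1 = u + (n - 1 - u) by
        have := Finset.mem_range.1 hu; omega, pow_add]
      refine le_trans (mul_le_mul ((l2_opNorm_mul _ _).trans (mul_le_mul_of_nonneg_right (hW u)
        (norm_nonneg _))) (hW _) (norm_nonneg _) (by positivity)) (le_of_eq ?_)
      rw [l2_opNorm_conjTranspose, show u + (n - 1 - u) - u = n - 1 - u by omega]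
      ring)
  have h2 := sum_gDc_le c z hc (range n) x y (Fintype.card p : ℂ)⁻¹ hop
    (fun u => (gW (p := p) (o := o) c) ^ u)
    (fun u => gS (p := p) (o := o) c * (gW (p := p) (o := o) c) ^ (n - 1 - u))
    (Φ := ‖eW c z‖ ^ (n - 1) * ‖eS c z‖) (fun u hu => by
      rw [Matrix.map_mul, show n - 1 = u + (n - 1 - u) by
        have := Finset.mem_range.1 hu; omega, pow_add]
      refine le_trans (mul_le_mul (hW u) ((l2_opNorm_mul _ _).trans (mul_le_mul_of_nonneg_left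
        (hW _) (norm_nonneg _))) (norm_nonneg _) (by positivity)) (le_of_eq ?_)
      rw [show u + (n - 1 - u) - u = n - 1 - u by omega, eS]
      ring)
  rw [gradSq_eq]
  simp only [hd, map_gD_gW, map_gDc_gW, ← Matrix.mul_assoc] at *
  refine (mul_le_mul_of_nonneg_left (add_le_add h1 h2) (Nat.cast_nonneg _)).trans (le_of_eq ?_)
  rw [Finset.card_range, norm_inv, Complex.norm_natCast]
  have : (Fintype.card o : ℝ) ≠ 0 := by simp
  have : (Fintype.card p : ℝ) ≠ 0 := by simp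
  field_simp
  ring

omit hc in
/-- The derivative of `B n` through `S`. -/
theorem gD_gB (v : m × o × p) (n : ℕ) (x y : β) :
    gD v (gB (p := p) (o := o) c n x y) =
      (Fintype.card o : ℂ)⁻¹ • (∑ u ∈ range n, ∑ e, (gM (p := p) (o := o) c u * gUnit c v *
        ((gW (p := p) (o := o) c) ^ (n - 1 - u) * gSc (p := p) (o := o) c)) (x, e) (y, e)) +
      (Fintype.card o : ℂ)⁻¹ • ∑ _u ∈ range 1, ∑ e, ((1 : Matrix (β × o) (β × o) (GPoly m p o)) *
        gUnit c v * ((gW (p := p) (o := o) c) ^ n * gSc (p := p) (o := o) c)) (x, e) (y, e) := by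
  simp only [gB, Matrix.of_apply, Derivation.map_smul, map_sum]
  rw [Finset.range_one, Finset.sum_singleton, ← smul_add, Finset.sum_comm, ← Finset.sum_add_distrib]
  congr 1
  refine Finset.sum_congr rfl fun e _ => ?_
  rw [← Matrix.map_apply (f := gD v), gM, gT, map_mul_deriv, map_mul_deriv, map_gD_gSc,
    map_gD_gS, map_pow_deriv, map_gD_gW, Matrix.mul_zero, add_zero, Matrix.add_mul,
    Matrix.mul_sum, Matrix.sum_mul, Matrix.add_apply, Matrix.sum_apply, Matrix.one_mul, add_comm]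
  simp only [gM, gT, Matrix.mul_assoc]

omit hc in
/-- The derivative of `B n` through `S*`. -/
theorem gDc_gB (v : m × o × p) (n : ℕ) (x y : β) :
    gDc v (gB (p := p) (o := o) c n x y) =
      (Fintype.card o : ℂ)⁻¹ • (∑ u ∈ range n, ∑ e, (gT (p := p) (o := o) c u * gUnitC c v *
        gM (p := p) (o := o) c (n - 1 - u)) (x, e) (y, e)) +
      (Fintype.card o : ℂ)⁻¹ • ∑ _u ∈ range 1, ∑ e, (gT (p := p) (o := o) c n * gUnitC c v *
        (1 : Matrix (β × o) (β × o) (GPoly m p o))) (x, e) (y, e) := by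
  simp only [gB, Matrix.of_apply, Derivation.map_smul, map_sum]
  rw [Finset.range_one, Finset.sum_singleton, ← smul_add, Finset.sum_comm, ← Finset.sum_add_distrib]
  congr 1
  refine Finset.sum_congr rfl fun e _ => ?_
  rw [← Matrix.map_apply (f := gDc v), gM, gT, map_mul_deriv, map_mul_deriv, map_gDc_gSc,
    map_gDc_gS, map_pow_deriv, map_gDc_gW, Matrix.zero_mul, zero_add, Matrix.mul_sum,
    Matrix.sum_mul, Matrix.add_apply, Matrix.sum_apply, Matrix.mul_one]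
  simp only [gM, gT, Matrix.mul_assoc]

omit [DecidableEq α] [DecidableEq β] [DecidableEq p] [DecidableEq o] [DecidableEq m] [Nonempty o] hc in
theorem sum_sq_add_le {V : Type} [Fintype V] (f g : V → ℂ) {a b : ℝ}
    (hf : ∑ v, ‖f v‖ ^ 2 ≤ a) (hg : ∑ v, ‖g v‖ ^ 2 ≤ b) :
    ∑ v, ‖f v + g v‖ ^ 2 ≤ 2 * (a + b) := by
  refine le_trans (Finset.sum_le_sum (g := fun v => 2 * (‖f v‖ ^ 2 + ‖g v‖ ^ 2)) fun v _ =>
    (pow_le_pow_left₀ (norm_nonneg _) (norm_add_le _ _) 2).trans (add_sq_le)) ?_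
  rw [← Finset.mul_sum, Finset.sum_add_distrib]
  linarith

/-- The gradient of `B n`. -/
theorem gradSq_gB_le (hop : Fintype.card o ≤ Fintype.card p) (n : ℕ) (x y : β) :
    gradSq (gB (p := p) (o := o) c n x y) z ≤ 4 * Fintype.card m *
      ((Fintype.card β * Fintype.card α : ℕ) : ℝ) ^ 2 *
      ((Fintype.card p : ℝ) / (Fintype.card o : ℝ) ^ 3) *
      (‖eW c z‖ ^ n * ‖eS c z‖ + n * (‖eW c z‖ ^ (n - 1) * ‖eS c z‖ ^ 3)) ^ 2 := by
  have hW : ∀ k, ‖((gW (p := p) (o := o) c) ^ k).map (evalR z)‖ ≤ ‖eW c z‖ ^ k := fun k => by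
    rw [map_gW_pow]; exact norm_eW_pow_le c z k
  have hM : ∀ k, ‖(gM (p := p) (o := o) c k).map (evalR z)‖ ≤
      ‖eS c z‖ * ‖eW c z‖ ^ k * ‖eS c z‖ := fun k => by
    rw [map_gM]
    refine (l2_opNorm_mul _ _).trans ?_
    rw [l2_opNorm_conjTranspose]
    exact mul_le_mul_of_nonneg_right ((l2_opNorm_mul _ _).trans
      (mul_le_mul_of_nonneg_left (norm_eW_pow_le c z k) (norm_nonneg _))) (norm_nonneg _)
  have hT : ∀ k, ‖(gT (p := p) (o := o) c k).map (evalR z)‖ ≤ ‖eS c z‖ * ‖eW c z‖ ^ k := fun k => by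
    rw [gT, Matrix.map_mul]
    exact (l2_opNorm_mul _ _).trans (mul_le_mul_of_nonneg_left (hW k) (norm_nonneg _))
  have hR : ∀ k, ‖((gW (p := p) (o := o) c) ^ k * gSc (p := p) (o := o) c).map (evalR z)‖ ≤
      ‖eW c z‖ ^ k * ‖eS c z‖ := fun k => by
    rw [Matrix.map_mul, map_gSc]
    refine (l2_opNorm_mul _ _).trans ?_
    rw [l2_opNorm_conjTranspose]
    exact mul_le_mul_of_nonneg_right (hW k) (norm_nonneg _)
  have hone : ‖(1 : Matrix (β × o) (β × o) (GPoly m p o)).map (evalR z)‖ ≤ 1 := by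
    rw [Matrix.map_one _ (map_zero _) (map_one _)]
    rcases isEmpty_or_nonempty (β × o) with h | h
    · simp [Subsingleton.elim (1 : Matrix (β × o) (β × o) ℂ) 0]
    · simp
  have hpow : ∀ u ∈ range n, ‖eW c z‖ ^ u * ‖eW c z‖ ^ (n - 1 - u) = ‖eW c z‖ ^ (n - 1) :=
    fun u hu => by
      have := Finset.mem_range.1 hu
      rw [← pow_add, show u + (n - 1 - u) = n - 1 by omega]
  have d1 := sum_gD_le c z hc (range n) x y (Fintype.card o : ℂ)⁻¹
    (fun u => gM (p := p) (o := o) c u)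
    (fun u => (gW (p := p) (o := o) c) ^ (n - 1 - u) * gSc (p := p) (o := o) c)
    (Φ := ‖eW c z‖ ^ (n - 1) * ‖eS c z‖ ^ 3) (fun u hu => by
      refine (mul_le_mul (hM u) (hR _) (norm_nonneg _) (by positivity)).trans (le_of_eq ?_)
      rw [← hpow u hu]; ring)
  have d2 := sum_gD_le c z hc (range 1) x y (Fintype.card o : ℂ)⁻¹
    (fun _ => (1 : Matrix (β × o) (β × o) (GPoly m p o)))
    (fun _ => (gW (p := p) (o := o) c) ^ n * gSc (p := p) (o := o) c)
    (Φ := ‖eW c z‖ ^ n * ‖eS c z‖) (fun u _ =>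
      (mul_le_of_le_one_left (norm_nonneg _) hone).trans (hR n))
  have e1 := sum_gDc_le c z hc (range n) x y (Fintype.card o : ℂ)⁻¹ hop
    (fun u => gT (p := p) (o := o) c u) (fun u => gM (p := p) (o := o) c (n - 1 - u))
    (Φ := ‖eW c z‖ ^ (n - 1) * ‖eS c z‖ ^ 3) (fun u hu => by
      refine (mul_le_mul (hT u) (hM _) (norm_nonneg _) (by positivity)).trans (le_of_eq ?_)
      rw [← hpow u hu]; ring)
  have e2 := sum_gDc_le c z hc (range 1) x y (Fintype.card o : ℂ)⁻¹ hop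
    (fun _ => gT (p := p) (o := o) c n) (fun _ => (1 : Matrix (β × o) (β × o) (GPoly m p o)))
    (Φ := ‖eW c z‖ ^ n * ‖eS c z‖) (fun u _ =>
      ((mul_le_mul (hT n) hone (norm_nonneg _) (by positivity)).trans (le_of_eq (by ring))))
  rw [gradSq_eq]
  simp only [gD_gB, gDc_gB, map_add]
  refine (mul_le_mul_of_nonneg_left (add_le_add (sum_sq_add_le _ _ d1 d2) (sum_sq_add_le _ _ e1 e2))
    (Nat.cast_nonneg _)).trans ?_
  rw [Finset.card_range, Finset.card_range, norm_inv, Complex.norm_natCast]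
  push_cast
  have ho : (Fintype.card o : ℝ) ≠ 0 := by simp
  have key : ((n : ℝ) * (‖eW c z‖ ^ (n - 1) * ‖eS c z‖ ^ 3)) ^ 2 + (‖eW c z‖ ^ n * ‖eS c z‖) ^ 2 ≤
      (‖eW c z‖ ^ n * ‖eS c z‖ + n * (‖eW c z‖ ^ (n - 1) * ‖eS c z‖ ^ 3)) ^ 2 := by
    have : 0 ≤ (‖eW c z‖ ^ n * ‖eS c z‖) * (n * (‖eW c z‖ ^ (n - 1) * ‖eS c z‖ ^ 3)) := by positivity
    linarith [add_sq (‖eW c z‖ ^ n * ‖eS c z‖) ((n : ℝ) * (‖eW c z‖ ^ (n - 1) * ‖eS c z‖ ^ 3))]
  refine le_trans (le_of_eq ?_) (mul_le_mul_of_nonneg_left key (by positivity))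
  field_simp
  ring

end

end Vale.Agent.P095.Amen.Random
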