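import Vale.Agent.P095.Amen.Random.Gauss

/-!
# P095: the random matrix model

`S = ∑ i, c i ⊗ Y i` with independent complex Gaussian `Y i` of variance `1 / N`, as a matrix of
polynomials, `W = S* S - (∑ cᵢ* cᵢ) ⊗ 1` and the partial traces of its powers.
-/

namespace Vale.Agent.P095.Amen.Random

open MvPolynomial Finset Matrix

noncomputable section

variable {m α β p o : Type} [Fintype m] [Fintype α] [Fintype β] [Fintype p] [Fintype o]
  [DecidableEq α] [DecidableEq β] [DecidableEq p] [DecidableEq o]

/-- The index of the real variables. -/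
abbrev GIdx (m p o : Type) : Type := (m × o × p) × Fin 2

/-- Polynomials in the variables. -/
abbrev GPoly (m p o : Type) : Type := MvPolynomial (GIdx m p o) ℂ

/-- The scale of one real variable. -/
def sca (o : Type) [Fintype o] : ℂ := ((Real.sqrt (2 * Fintype.card o))⁻¹ : ℝ)

omit [DecidableEq o] in
theorem sca_mul_sca [Nonempty o] : sca o * sca o = (2 * (Fintype.card o : ℂ))⁻¹ := by
  rw [sca, ← Complex.ofReal_mul, ← mul_inv, Real.mul_self_sqrt (by positivity)]
  push_cast
  ring

/-- The entry `v` of `Y`. -/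
def gY (v : m × o × p) : GPoly m p o := sca o • (X (v, 0) + Complex.I • X (v, 1))

/-- Its conjugate. -/
def gYc (v : m × o × p) : GPoly m p o := sca o • (X (v, 0) - Complex.I • X (v, 1))

/-- The derivative in the entry `v`. -/
def gD (v : m × o × p) : Derivation ℂ (GPoly m p o) (GPoly m p o) :=
  sca o • (pderiv (v, 0) - Complex.I • pderiv (v, 1))

/-- The derivative in its conjugate. -/
def gDc (v : m × o × p) : Derivation ℂ (GPoly m p o) (GPoly m p o) :=
  sca o • (pderiv (v, 0) + Complex.I • pderiv (v, 1))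

omit [DecidableEq α] [DecidableEq β] [DecidableEq p] [DecidableEq o] in
/-- Integration by parts in a conjugate entry. -/
theorem gE_gYc_mul (v : m × o × p) (f : GPoly m p o) : gE (gYc v * f) = gE (gD v f) := by
  simp [gYc, gD, sub_mul, smul_sub, gE_X_mul]

omit [DecidableEq α] [DecidableEq β] [DecidableEq p] [DecidableEq o] in
/-- Integration by parts in an entry. -/
theorem gE_gY_mul (v : m × o × p) (f : GPoly m p o) : gE (gY v * f) = gE (gDc v f) := by
  simp [gY, gDc, add_mul, smul_add, gE_X_mul]

section Deriv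

variable [DecidableEq m] [Nonempty o]

omit [Fintype m] [Fintype p] in
theorem gD_gY (v w : m × o × p) :
    gD v (gY w) = if v = w then C (Fintype.card o : ℂ)⁻¹ else 0 := by
  rcases eq_or_ne v w with rfl | h
  · simp only [gD, gY, Derivation.smul_apply, Derivation.sub_apply, Derivation.map_smul, map_add,
      pderiv_X_self, pderiv_X_of_ne (show ((v, 1) : GIdx m p o) ≠ (v, 0) by simp),
      pderiv_X_of_ne (show ((v, 0) : GIdx m p o) ≠ (v, 1) by simp), smul_zero,
      smul_sub, smul_smul, if_true, C_eq_smul_one]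
    simp only [smul_smul, sub_zero, zero_sub,
      ← sub_eq_add_neg, ← sub_smul]
    congr 1
    have h2 := sca_mul_sca (o := o)
    field_simp at h2 ⊢
    linear_combination h2 - sca o ^ 2 * Fintype.card o * Complex.I_sq
  · have h1 : ∀ a b, ((v, a) : GIdx m p o) ≠ (w, b) := fun a b e => h (congrArg Prod.fst e)
    simp [gD, gY, pderiv_X_of_ne (h1 _ _).symm, h]

omit [Fintype m] [Fintype p] in
theorem gDc_gYc (v w : m × o × p) :
    gDc v (gYc w) = if v = w then C (Fintype.card o : ℂ)⁻¹ else 0 := by
  rcases eq_or_ne v w with rfl | h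
  · simp only [gDc, gYc, Derivation.smul_apply, Derivation.add_apply, Derivation.map_smul, map_sub,
      pderiv_X_self, pderiv_X_of_ne (show ((v, 1) : GIdx m p o) ≠ (v, 0) by simp),
      pderiv_X_of_ne (show ((v, 0) : GIdx m p o) ≠ (v, 1) by simp), smul_zero,
      smul_add, smul_smul, if_true, C_eq_smul_one]
    simp only [smul_smul, add_zero, zero_add,
      ← sub_smul]
    congr 1
    have h2 := sca_mul_sca (o := o)
    field_simp at h2 ⊢
    linear_combination h2 - sca o ^ 2 * Fintype.card o * Complex.I_sq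
  · have h1 : ∀ a b, ((v, a) : GIdx m p o) ≠ (w, b) := fun a b e => h (congrArg Prod.fst e)
    simp [gDc, gYc, pderiv_X_of_ne (h1 _ _).symm, h]

omit [Fintype m] [Fintype p] [Nonempty o] [DecidableEq p] [DecidableEq o] [DecidableEq m] in
theorem gD_gYc (v w : m × o × p) : gD v (gYc w) = 0 := by
  rcases eq_or_ne v w with rfl | h
  · simp only [gD, gYc, Derivation.smul_apply, Derivation.sub_apply, Derivation.map_smul, map_sub,
      pderiv_X_self, pderiv_X_of_ne (show ((v, 1) : GIdx m p o) ≠ (v, 0) by simp),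
      pderiv_X_of_ne (show ((v, 0) : GIdx m p o) ≠ (v, 1) by simp), smul_zero, sub_zero, zero_sub,
      smul_neg, smul_sub, smul_smul, sub_neg_eq_add, ← add_smul]
    rw [show sca o * sca o + sca o * Complex.I * (sca o * Complex.I) = 0 by
      linear_combination sca o ^ 2 * Complex.I_sq, zero_smul]
  · have h1 : ∀ a b, ((v, a) : GIdx m p o) ≠ (w, b) := fun a b e => h (congrArg Prod.fst e)
    simp [gD, gYc, pderiv_X_of_ne (h1 _ _).symm]

omit [Fintype m] [Fintype p] [Nonempty o] [DecidableEq p] [DecidableEq o] [DecidableEq m] in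
theorem gDc_gY (v w : m × o × p) : gDc v (gY w) = 0 := by
  rcases eq_or_ne v w with rfl | h
  · simp only [gDc, gY, Derivation.smul_apply, Derivation.add_apply, Derivation.map_smul, map_add,
      pderiv_X_self, pderiv_X_of_ne (show ((v, 1) : GIdx m p o) ≠ (v, 0) by simp),
      pderiv_X_of_ne (show ((v, 0) : GIdx m p o) ≠ (v, 1) by simp), smul_zero, add_zero, zero_add,
      smul_add, smul_smul, ← add_smul]
    rw [show sca o * sca o + sca o * Complex.I * (sca o * Complex.I) = 0 by
      linear_combination sca o ^ 2 * Complex.I_sq, zero_smul]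
  · have h1 : ∀ a b, ((v, a) : GIdx m p o) ≠ (w, b) := fun a b e => h (congrArg Prod.fst e)
    simp [gDc, gY, pderiv_X_of_ne (h1 _ _).symm]

end Deriv

variable (c : m → Matrix β α ℂ)

/-- `S`. -/
def gS : Matrix (β × o) (α × p) (GPoly m p o) := fun x y => ∑ i, c i x.1 y.1 • gY (i, x.2, y.2)

/-- `S*`. -/
def gSc : Matrix (α × p) (β × o) (GPoly m p o) :=
  fun y x => ∑ i, star (c i x.1 y.1) • gYc (i, x.2, y.2)

/-- `∑ cᵢ* cᵢ`. -/
def colSum : Matrix α α ℂ := ∑ i, (c i).conjTranspose * c i

/-- `W`. -/
def gW : Matrix (α × p) (α × p) (GPoly m p o) :=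
  (gSc c : Matrix (α × p) (β × o) (GPoly m p o)) * (gS c : Matrix (β × o) (α × p) (GPoly m p o))
    - Matrix.of fun x y => if x.2 = y.2 then C (colSum c x.1 y.1) else 0

/-- The normalised partial trace of `W ^ n`. -/
def gA (n : ℕ) : Matrix α α (GPoly m p o) :=
  Matrix.of fun x y => (Fintype.card p : ℂ)⁻¹ • ∑ b : p, ((gW c : Matrix (α × p) (α × p) (GPoly m p o)) ^ n) (x, b) (y, b)

/-- `S W ^ n`. -/
def gT (n : ℕ) : Matrix (β × o) (α × p) (GPoly m p o) :=
  (gS c : Matrix (β × o) (α × p) (GPoly m p o)) *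
    (gW c : Matrix (α × p) (α × p) (GPoly m p o)) ^ n

/-- `S W ^ n S*`. -/
def gM (n : ℕ) : Matrix (β × o) (β × o) (GPoly m p o) :=
  (gT c n : Matrix (β × o) (α × p) (GPoly m p o)) * (gSc c : Matrix (α × p) (β × o) (GPoly m p o))

/-- The normalised partial trace of `S W ^ n S*`. -/
def gB (n : ℕ) : Matrix β β (GPoly m p o) :=
  Matrix.of fun x y => (Fintype.card o : ℂ)⁻¹ • ∑ a : o, (gM c n : Matrix (β × o) (β × o) (GPoly m p o)) (x, a) (y, a)

/-- A scalar matrix as a matrix of constants. -/
def liftC {I J : Type} (a : Matrix I J ℂ) : Matrix I J (GPoly m p o) :=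
  Matrix.of fun x y => C (a x y)

/-- `B ↦ ∑ cᵢ* B cᵢ`, on polynomial matrices. -/
def etaP (B : Matrix β β (GPoly m p o)) : Matrix α α (GPoly m p o) :=
  ∑ i, (liftC (Matrix.conjTranspose (c i)) : Matrix α β (GPoly m p o)) * B *
    (liftC (c i) : Matrix β α (GPoly m p o))

/-- `A ↦ ∑ cᵢ A cᵢ*`, on polynomial matrices. -/
def etaP' (A : Matrix α α (GPoly m p o)) : Matrix β β (GPoly m p o) :=
  ∑ i, (liftC (c i) : Matrix β α (GPoly m p o)) * A *
    (liftC (Matrix.conjTranspose (c i)) : Matrix α β (GPoly m p o))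

omit [Fintype α] [DecidableEq α] [DecidableEq β] [Fintype β] [Fintype o] [DecidableEq o] in
/-- The Leibniz rule for a derivation applied entrywise. -/
theorem map_mul_deriv {R I J K : Type} [CommRing R] [Algebra ℂ R] [Fintype J]
    (d : Derivation ℂ R R) (A : Matrix I J R) (B : Matrix J K R) :
    (A * B).map d = A.map d * B + A * B.map d := by
  ext i k
  simp only [map_apply, mul_apply, map_sum, Derivation.leibniz, smul_eq_mul, Matrix.add_apply,
    ← Finset.sum_add_distrib]
  exact Finset.sum_congr rfl fun j _ => by ring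

/-- The derivative of a power. -/
theorem map_pow_deriv {R I : Type} [CommRing R] [Algebra ℂ R] [Fintype I] [DecidableEq I]
    (d : Derivation ℂ R R) (A : Matrix I I R) :
    ∀ n, (A ^ n).map d = ∑ u ∈ range n, A ^ u * A.map d * A ^ (n - 1 - u)
  | 0 => by ext i j; simp [Matrix.one_apply, apply_ite d]
  | n + 1 => by
    rw [pow_succ, map_mul_deriv, map_pow_deriv d A n, Finset.sum_range_succ, Finset.sum_mul]
    congr 1
    · refine Finset.sum_congr rfl fun u hu => ?_
      rw [mul_assoc, mul_assoc, ← pow_succ, mul_assoc]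
      congr 3
      have := Finset.mem_range.1 hu
      omega
    · simp

end

end Vale.Agent.P095.Amen.Random
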