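import Vale.Agent.P095.Amen.Random.Pair

/-!
# P095: the moments of the model
-/

namespace Vale.Agent.P095.Amen.Random

open MvPolynomial Finset Matrix
open scoped Matrix.Norms.L2Operator

noncomputable section

theorem sum_inv_sq_le (n : ℕ) :
    ∑ u ∈ range n, ((u : ℝ) + 1)⁻¹ ^ 2 ≤ 2 - 2 * (2 * (n : ℝ) + 1)⁻¹ := by
  induction n with
  | zero => norm_num
  | succ n ih =>
    rw [Finset.sum_range_succ]
    have key : ((n : ℝ) + 1)⁻¹ ^ 2 ≤
        2 * (2 * (n : ℝ) + 1)⁻¹ - 2 * (2 * ((n : ℝ) + 1) + 1)⁻¹ := by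
      field_simp
      nlinarith
    push_cast
    linarith

/-- The convolution of `1 / (u + 1) ^ 2` with itself. -/
theorem sum_conv_le (n : ℕ) :
    ∑ u ∈ range n, ((u : ℝ) + 1)⁻¹ ^ 2 * ((((n - 1 - u : ℕ) : ℝ)) + 1)⁻¹ ^ 2 ≤
      8 * ((n : ℝ) + 1)⁻¹ ^ 2 := by
  have h : ∀ u ∈ range n, ((u : ℝ) + 1)⁻¹ ^ 2 * ((((n - 1 - u : ℕ) : ℝ)) + 1)⁻¹ ^ 2 ≤
      2 * ((n : ℝ) + 1)⁻¹ ^ 2 *
        (((u : ℝ) + 1)⁻¹ ^ 2 + ((((n - 1 - u : ℕ) : ℝ)) + 1)⁻¹ ^ 2) := fun u hu => by
    have hsum : ((n : ℝ) + 1) = ((u : ℝ) + 1) + ((((n - 1 - u : ℕ) : ℝ)) + 1) := by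
      have := Finset.mem_range.1 hu
      have h' : (n : ℝ) = u + (n - 1 - u : ℕ) + 1 := by
        exact_mod_cast (by omega : n = u + (n - 1 - u) + 1)
      linarith
    rw [hsum]
    have h1 : (0 : ℝ) < (u : ℝ) + 1 := by positivity
    have h2 : (0 : ℝ) < ((n - 1 - u : ℕ) : ℝ) + 1 := by positivity
    field_simp
    nlinarith [sq_nonneg ((u : ℝ) + 1 - (((n - 1 - u : ℕ) : ℝ) + 1))]
  refine (Finset.sum_le_sum h).trans ?_
  rw [← Finset.mul_sum, Finset.sum_add_distrib,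
    Finset.sum_range_reflect (fun u => ((u : ℝ) + 1)⁻¹ ^ 2) n]
  have h2 : ∑ u ∈ range n, ((u : ℝ) + 1)⁻¹ ^ 2 ≤ 2 := by
    have : (0 : ℝ) ≤ (2 * (n : ℝ) + 1)⁻¹ := by positivity
    linarith [sum_inv_sq_le n]
  calc _ ≤ 2 * ((n : ℝ) + 1)⁻¹ ^ 2 * (2 + 2) := by gcongr
    _ = _ := by ring

variable {m α β p o : Type} [Fintype m] [Fintype α] [Fintype β] [Fintype p] [Fintype o]
  [DecidableEq α] [DecidableEq β] [DecidableEq p] [DecidableEq o] [DecidableEq m] [Nonempty o]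
  [Nonempty p] (c : m → Matrix β α ℂ)

/-- `E A n`. -/
def eA (n : ℕ) : Matrix α α ℂ := (gA (p := p) (o := o) c n).map gE

/-- `E B n`. -/
def eB (n : ℕ) : Matrix β β ℂ := (gB (p := p) (o := o) c n).map gE

omit [Fintype α] [Fintype β] [DecidableEq α] [DecidableEq β] [DecidableEq p] [DecidableEq o]
  [DecidableEq m] [Nonempty o] [Nonempty p] in
theorem gE_natCast (k : ℕ) : gE (k : GPoly m p o) = k := by
  rw [← map_natCast (C : ℂ →+* GPoly m p o), gE_C]

omit [DecidableEq β] [DecidableEq o] [DecidableEq m] [Nonempty o] in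
theorem norm_eA_zero_le : ‖eA (p := p) (o := o) c 0‖ ≤ 1 := by
  have h : eA (p := p) (o := o) c 0 = 1 := by
    ext x y
    rcases eq_or_ne x y with rfl | hxy
    · simp [eA, gA, Matrix.one_apply, gE_natCast]
    · simp [eA, gA, hxy]
  rw [h]
  rcases isEmpty_or_nonempty α with h' | h'
  · simp [Subsingleton.elim (1 : Matrix α α ℂ) 0]
  · simp

theorem eA_succ (n : ℕ) : eA (p := p) (o := o) c (n + 1) = ∑ u ∈ range n,
    (etaP c (gB (p := p) (o := o) c u) * gA (p := p) (o := o) c (n - 1 - u)).map gE := by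
  ext x y
  simp only [eA, Matrix.map_apply, Matrix.sum_apply]
  exact gE_gA_succ c n x y

theorem eB_eq (n : ℕ) : eB (p := p) (o := o) c n =
    ((Fintype.card p : ℂ) / Fintype.card o) • ((etaP' c (gA (p := p) (o := o) c n)).map gE +
      ∑ u ∈ range n,
        (etaP' c (gA (p := p) (o := o) c u) * gB (p := p) (o := o) c (n - 1 - u)).map gE) := by
  ext x y
  simp only [eB, Matrix.map_apply, Matrix.smul_apply, Matrix.add_apply, Matrix.sum_apply,
    smul_eq_mul]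
  exact gE_gB c n x y

/-- The size of the error terms. -/
def errBound (m α β o : Type) [Fintype m] [Fintype α] [Fintype β] [Fintype o] (H : ℝ) (M : ℕ)
    (n : ℕ) : ℝ :=
  288 * ((Fintype.card m : ℝ) + Fintype.card α + Fintype.card β + 2) ^ 12 * (n : ℝ) ^ 2 * H ^ 3 *
    M / Fintype.card o

variable {M : ℕ} {ρ H : ℝ}

omit [DecidableEq α] [DecidableEq β] [DecidableEq p] [DecidableEq o] [DecidableEq m] [Nonempty p] in
theorem err_le (hρ : 0 < ρ) (hH : 1 ≤ H) (hHρ : 1 ≤ H * ρ) (hM : 0 < M)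
    (hp : Fintype.card p = M * Fintype.card o) {n : ℕ} (hn : 0 < n) {K : ℝ}
    (hK : K ≤ ((Fintype.card m : ℝ) + Fintype.card α + Fintype.card β + 2) ^ 6) :
    K * (144 * Fintype.card m * ((Fintype.card β * Fintype.card α : ℕ) : ℝ) ^ 2 * (n : ℝ) ^ 2 *
      H ^ 2 * ρ ^ (n - 1) * (1 + Fintype.card p * Fintype.card α) / (Fintype.card o : ℝ) ^ 2) ≤
      errBound m α β o H M n * ρ ^ n := by
  set S : ℝ := (Fintype.card m : ℝ) + Fintype.card α + Fintype.card β + 2 with hS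
  have hm0 : (0 : ℝ) ≤ Fintype.card m := Nat.cast_nonneg _
  have ha0 : (0 : ℝ) ≤ Fintype.card α := Nat.cast_nonneg _
  have hb0 : (0 : ℝ) ≤ Fintype.card β := Nat.cast_nonneg _
  have hS0 : 0 ≤ S := by positivity
  have hO : (1 : ℝ) ≤ Fintype.card o := by exact_mod_cast Fintype.card_pos
  have hM' : (1 : ℝ) ≤ M := by exact_mod_cast hM
  have h1 : ρ ^ (n - 1) ≤ H * ρ ^ n := by
    calc ρ ^ (n - 1) ≤ H * ρ * ρ ^ (n - 1) := le_mul_of_one_le_left (by positivity) hHρ
      _ = H * ρ ^ n := by rw [mul_assoc, mul_pow_sub_one hn.ne']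
  have h2 : 1 + (Fintype.card p : ℝ) * Fintype.card α ≤ M * Fintype.card o * S := by
    rw [hp, Nat.cast_mul]
    have : (1 : ℝ) ≤ M * Fintype.card o := one_le_mul_of_one_le_of_one_le hM' hO
    calc 1 + (M : ℝ) * Fintype.card o * Fintype.card α
        ≤ (M : ℝ) * Fintype.card o * 1 + M * Fintype.card o * Fintype.card α := by linarith
      _ ≤ _ := by rw [← mul_add]; gcongr; linarith
  have hm1 : (Fintype.card m : ℝ) ≤ S := by linarith
  have hba : ((Fintype.card β * Fintype.card α : ℕ) : ℝ) ≤ S * S := by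
    push_cast; gcongr <;> linarith
  refine (mul_le_mul_of_nonneg_right hK (by positivity)).trans ?_
  calc S ^ 6 * (144 * Fintype.card m * ((Fintype.card β * Fintype.card α : ℕ) : ℝ) ^ 2 *
        (n : ℝ) ^ 2 * H ^ 2 * ρ ^ (n - 1) * (1 + Fintype.card p * Fintype.card α) /
        (Fintype.card o : ℝ) ^ 2)
      ≤ S ^ 6 * (144 * S * (S * S) ^ 2 * (n : ℝ) ^ 2 * H ^ 2 * (H * ρ ^ n) *
        (M * Fintype.card o * S) / (Fintype.card o : ℝ) ^ 2) := by gcongr
    _ = 144 * S ^ 12 * (n : ℝ) ^ 2 * H ^ 3 * M / Fintype.card o * ρ ^ n := by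
        field_simp
    _ ≤ _ := by
        rw [errBound, ← hS]
        gcongr
        norm_num


theorem norm_eA_succ_le (hc : ‖colSum c‖ ≤ 1) (hM : 0 < M)
    (hp : Fintype.card p = M * Fintype.card o) (hρ : 0 < ρ) (hH : 1 ≤ H) (hHρ : 1 ≤ H * ρ)
    (n : ℕ) {q : ℕ} (hqn : n - 1 ≤ 2 * q)
    (ha : ‖eA (p := p) (o := o) c (2 * q)‖ ≤ ρ ^ (2 * q)) :
    ‖eA (p := p) (o := o) c (n + 1)‖ ≤
      (∑ u ∈ range n, ‖eB (p := p) (o := o) c u‖ * ‖eA (p := p) (o := o) c (n - 1 - u)‖) +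
        n * errBound m α β o H M n * ρ ^ n := by
  set κ : ℝ := 144 * Fintype.card m * ((Fintype.card β * Fintype.card α : ℕ) : ℝ) ^ 2 *
    (n : ℝ) ^ 2 * H ^ 2 * ρ ^ (n - 1) * (1 + Fintype.card p * Fintype.card α) /
      (Fintype.card o : ℝ) ^ 2 with hκ
  have hu : ∀ u ∈ range n,
      ‖(etaP c (gB (p := p) (o := o) c u) * gA (p := p) (o := o) c (n - 1 - u)).map gE‖ ≤
        ‖eB (p := p) (o := o) c u‖ * ‖eA (p := p) (o := o) c (n - 1 - u)‖ +
          errBound m α β o H M n * ρ ^ n := fun u hu => by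
    have hun := Finset.mem_range.1 hu
    refine (norm_map_mul_le (etaP c (gB (p := p) (o := o) c u))
      (gA (p := p) (o := o) c (n - 1 - u)) (κ := Fintype.card (m × β × β) * κ) fun i j l =>
      norm_cov_etaP_le c (norm_coeff_le c hc) _ _ (fun a b =>
        norm_cov_gB_gA_le c hc (hp ▸ Nat.le_mul_of_pos_left _ hM) hρ hH hHρ (by omega) hqn ha
          a b j l) i j).trans (add_le_add (mul_le_mul_of_nonneg_right ?_ (norm_nonneg _)) ?_)
    · rw [map_etaP]
      refine (norm_conj_sum_le c _).trans (mul_le_of_le_one_left (norm_nonneg _) hc)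
    · rw [← mul_assoc]
      refine err_le (m := m) (α := α) (β := β) hρ hH hHρ hM hp (by omega) ?_
      simp only [Fintype.card_prod]
      push_cast
      set S : ℝ := (Fintype.card m : ℝ) + Fintype.card α + Fintype.card β + 2 with hS
      have hm0 : (0 : ℝ) ≤ Fintype.card m := Nat.cast_nonneg _
      have ha0 : (0 : ℝ) ≤ Fintype.card α := Nat.cast_nonneg _
      have hb0 : (0 : ℝ) ≤ Fintype.card β := Nat.cast_nonneg _
      calc _ ≤ S * S * S * (S * (S * S)) := by gcongr <;> linarith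
        _ = S ^ 6 := by ring
  rw [eA_succ]
  refine ((norm_sum_le _ _).trans (Finset.sum_le_sum hu)).trans (le_of_eq ?_)
  rw [Finset.sum_add_distrib, Finset.sum_const, Finset.card_range, nsmul_eq_mul, mul_assoc]

theorem norm_eB_le (hc : ‖colSum c‖ ≤ 1) (hM : 0 < M) {ε : ℝ} (hε : ‖∑ i, c i * (c i)ᴴ‖ ≤ ε)
    (hp : Fintype.card p = M * Fintype.card o) (hρ : 0 < ρ) (hH : 1 ≤ H) (hHρ : 1 ≤ H * ρ)
    (n : ℕ) {q : ℕ} (hqn : n - 1 ≤ 2 * q)
    (ha : ‖eA (p := p) (o := o) c (2 * q)‖ ≤ ρ ^ (2 * q)) :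
    ‖eB (p := p) (o := o) c n‖ ≤ M * (ε * ‖eA (p := p) (o := o) c n‖ +
      (∑ u ∈ range n, ε * ‖eA (p := p) (o := o) c u‖ * ‖eB (p := p) (o := o) c (n - 1 - u)‖) +
        n * errBound m α β o H M n * ρ ^ n) := by
  have hu : ∀ u ∈ range n,
      ‖(etaP' c (gA (p := p) (o := o) c u) * gB (p := p) (o := o) c (n - 1 - u)).map gE‖ ≤
        ε * ‖eA (p := p) (o := o) c u‖ * ‖eB (p := p) (o := o) c (n - 1 - u)‖ +
          errBound m α β o H M n * ρ ^ n := fun u hu => by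
    have hun := Finset.mem_range.1 hu
    refine (norm_map_mul_le (etaP' c (gA (p := p) (o := o) c u))
      (gB (p := p) (o := o) c (n - 1 - u)) (κ := Fintype.card (m × α × α) *
      (144 * Fintype.card m * ((Fintype.card β * Fintype.card α : ℕ) : ℝ) ^ 2 *
      (n : ℝ) ^ 2 * H ^ 2 * ρ ^ (n - 1) * (1 + Fintype.card p * Fintype.card α) /
      (Fintype.card o : ℝ) ^ 2)) fun i j l =>
      norm_cov_etaP'_le c (norm_coeff_le c hc) _ _ (fun a b => by
        rw [cov_comm]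
        exact norm_cov_gB_gA_le c hc (hp ▸ Nat.le_mul_of_pos_left _ hM) hρ hH hHρ (by omega) hqn ha
          j l a b) i j).trans (add_le_add (mul_le_mul_of_nonneg_right ?_ (norm_nonneg _)) ?_)
    · rw [map_etaP']
      exact (norm_conj_sum'_le c _).trans (mul_le_mul_of_nonneg_right hε (norm_nonneg _))
    · rw [← mul_assoc]
      refine err_le (m := m) (α := α) (β := β) hρ hH hHρ hM hp (by omega) ?_
      simp only [Fintype.card_prod]
      push_cast
      set S : ℝ := (Fintype.card m : ℝ) + Fintype.card α + Fintype.card β + 2 with hS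
      have hm0 : (0 : ℝ) ≤ Fintype.card m := Nat.cast_nonneg _
      have ha0 : (0 : ℝ) ≤ Fintype.card α := Nat.cast_nonneg _
      have hb0 : (0 : ℝ) ≤ Fintype.card β := Nat.cast_nonneg _
      calc _ ≤ S * S * S * (S * (S * S)) := by gcongr <;> linarith
        _ = S ^ 6 := by ring
  have hMc : ‖(Fintype.card p : ℂ) / Fintype.card o‖ = M := by
    rw [norm_div, Complex.norm_natCast, Complex.norm_natCast, hp, Nat.cast_mul, mul_div_assoc,
      div_self (by simp), mul_one]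
  rw [eB_eq, norm_smul, hMc]
  refine mul_le_mul_of_nonneg_left ?_ (Nat.cast_nonneg _)
  refine ((norm_add_le _ _).trans (add_le_add (b := ε * ‖eA (p := p) (o := o) c n‖) ?_
    ((norm_sum_le _ _).trans (Finset.sum_le_sum hu)))).trans (le_of_eq ?_)
  · rw [map_etaP']
    exact (norm_conj_sum'_le c _).trans (mul_le_mul_of_nonneg_right hε (norm_nonneg _))
  · rw [Finset.sum_add_distrib, Finset.sum_const, Finset.card_range, nsmul_eq_mul]
    simp only [eA]
    ring

/-- The moments of the model are those of a semicircle of radius `O(√(M ε))`. -/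
theorem moments_le (hc : ‖colSum c‖ ≤ 1) (hM : 0 < M) {ε s : ℝ}
    (hε : ‖∑ i, c i * (c i)ᴴ‖ ≤ ε) (hs : (M : ℝ) * ε ≤ s) (hs0 : 0 < s)
    (hp : Fintype.card p = M * Fintype.card o) (hρ : 0 < ρ) (hH : 1 ≤ H) (hHρ : 1 ≤ H * ρ)
    (h1 : 24 * s ≤ ρ) (h2 : 192 * s ≤ ρ ^ 2) {P : ℕ}
    (hN : (M : ℝ) * (P * ((P : ℝ) + 2) ^ 2 * errBound m α β o H M P) ≤ min (ρ / 2) s) :
    ∀ n ≤ P, ‖eA (p := p) (o := o) c n‖ ≤ ((n : ℝ) + 1)⁻¹ ^ 2 * ρ ^ n ∧
      ‖eB (p := p) (o := o) c n‖ ≤ 3 * s * ((n : ℝ) + 1)⁻¹ ^ 2 * ρ ^ n := by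
  intro n
  induction n using Nat.strong_induction_on with
  | _ n ih =>
    intro hnP
    have hM1 : (1 : ℝ) ≤ M := by exact_mod_cast hM
    have hε0 : 0 ≤ ε := (norm_nonneg _).trans hε
    have hE0 : ∀ k, 0 ≤ errBound m α β o H M k := fun k => by
      have : 0 ≤ H := zero_le_one.trans hH
      unfold errBound
      positivity
    have hlt : ∀ k, k ≤ P → (M : ℝ) * (k * ((k : ℝ) + 2) ^ 2 * errBound m α β o H M k) ≤
        min (ρ / 2) s := fun k hk => by
      refine le_trans ?_ hN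
      have hk' : (k : ℝ) ≤ P := by exact_mod_cast hk
      have hH0 : 0 ≤ H := zero_le_one.trans hH
      have := hE0 k
      unfold errBound at this ⊢
      gcongr
    have hsq : ∀ k : ℕ, ((k : ℝ) + 1)⁻¹ ^ 2 ≤ 1 := fun k => by
      refine pow_le_one₀ (by positivity) (inv_le_one_of_one_le₀ ?_)
      linarith [Nat.cast_nonneg (α := ℝ) k]
    have hA : ‖eA (p := p) (o := o) c n‖ ≤ ((n : ℝ) + 1)⁻¹ ^ 2 * ρ ^ n := by
      rcases n with - | k
      · simpa using norm_eA_zero_le c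
      have hq : ‖eA (p := p) (o := o) c (2 * (k / 2))‖ ≤ ρ ^ (2 * (k / 2)) :=
        ((ih _ (by omega) (by omega)).1).trans (mul_le_of_le_one_left (by positivity) (hsq _))
      refine (norm_eA_succ_le c hc hM hp hρ hH hHρ k (by omega) hq).trans ?_
      have hconv : ∑ u ∈ range k, ‖eB (p := p) (o := o) c u‖ *
          ‖eA (p := p) (o := o) c (k - 1 - u)‖ ≤ 3 * s * ρ ^ (k - 1) * (8 * ((k : ℝ) + 1)⁻¹ ^ 2) := by
        refine le_trans ?_ (mul_le_mul_of_nonneg_left (sum_conv_le k) (by positivity))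
        rw [Finset.mul_sum]
        refine Finset.sum_le_sum fun u hu => ?_
        have := Finset.mem_range.1 hu
        refine (mul_le_mul (ih u (by omega) (by omega)).2 (ih (k - 1 - u) (by omega) (by omega)).1
          (norm_nonneg _) (by positivity)).trans (le_of_eq ?_)
        rw [show k - 1 = u + (k - 1 - u) by omega, pow_add, show u + (k - 1 - u) - u = k - 1 - u by omega]
        ring
      rcases Nat.eq_zero_or_pos k with rfl | hk
      · simp
        positivity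
      refine (add_le_add hconv le_rfl).trans ?_
      have hkp : ρ ^ (k + 1) = ρ ^ (k - 1) * ρ ^ 2 := by rw [← pow_add]; congr 1; omega
      have hkk : ρ ^ k = ρ ^ (k - 1) * ρ := by rw [← pow_succ]; congr 1; omega
      have e0 := hlt k (by omega)
      have e1 : (k : ℝ) * ((k : ℝ) + 2) ^ 2 * errBound m α β o H M k ≤ ρ / 2 := by
        refine le_trans ?_ (e0.trans (min_le_left _ _))
        exact le_mul_of_one_le_left (mul_nonneg (by positivity) (hE0 k)) hM1
      have hk2 : ((k : ℝ) + 1)⁻¹ ^ 2 ≤ 4 * (((k : ℝ) + 1) + 1)⁻¹ ^ 2 := by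
        field_simp
        nlinarith
      push_cast
      rw [hkp, hkk]
      have t1 : 3 * s * ρ ^ (k - 1) * (8 * ((k : ℝ) + 1)⁻¹ ^ 2) ≤
          ρ ^ (k - 1) * (ρ ^ 2 / 2 * (((k : ℝ) + 1) + 1)⁻¹ ^ 2) := by
        rw [show 3 * s * ρ ^ (k - 1) * (8 * ((k : ℝ) + 1)⁻¹ ^ 2) =
          ρ ^ (k - 1) * (24 * s * ((k : ℝ) + 1)⁻¹ ^ 2) by ring]
        refine mul_le_mul_of_nonneg_left ?_ (by positivity)
        calc 24 * s * ((k : ℝ) + 1)⁻¹ ^ 2 ≤ 24 * s * (4 * (((k : ℝ) + 1) + 1)⁻¹ ^ 2) := by gcongr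
          _ ≤ _ := by
            rw [← mul_assoc]
            exact mul_le_mul_of_nonneg_right (by linarith) (by positivity)
      have t2 : (k : ℝ) * errBound m α β o H M k * (ρ ^ (k - 1) * ρ) ≤
          ρ ^ (k - 1) * (ρ ^ 2 / 2 * (((k : ℝ) + 1) + 1)⁻¹ ^ 2) := by
        calc _ = ρ ^ (k - 1) * (ρ * (((k : ℝ) + 1) + 1)⁻¹ ^ 2 *
              ((k : ℝ) * ((k : ℝ) + 2) ^ 2 * errBound m α β o H M k)) := by
              field_simp
              ring
          _ ≤ ρ ^ (k - 1) * (ρ * (((k : ℝ) + 1) + 1)⁻¹ ^ 2 * (ρ / 2)) := by gcongr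
          _ = _ := by ring
      linarith
    refine ⟨hA, ?_⟩
    have hq : ‖eA (p := p) (o := o) c (2 * (n / 2))‖ ≤ ρ ^ (2 * (n / 2)) := by
      rcases (show 2 * (n / 2) ≤ n by omega).lt_or_eq with h | h
      · exact ((ih _ h (by omega)).1).trans (mul_le_of_le_one_left (by positivity) (hsq _))
      · rw [h]; exact hA.trans (mul_le_of_le_one_left (by positivity) (hsq _))
    refine (norm_eB_le c hc hM hε hp hρ hH hHρ n (by omega) hq).trans ?_
    have hconv : ∑ u ∈ range n, ε * ‖eA (p := p) (o := o) c u‖ *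
        ‖eB (p := p) (o := o) c (n - 1 - u)‖ ≤
          ε * (3 * s * ρ ^ (n - 1)) * (8 * ((n : ℝ) + 1)⁻¹ ^ 2) := by
      refine le_trans ?_ (mul_le_mul_of_nonneg_left (sum_conv_le n) (by positivity))
      rw [Finset.mul_sum]
      refine Finset.sum_le_sum fun u hu => ?_
      have := Finset.mem_range.1 hu
      refine (mul_le_mul (mul_le_mul_of_nonneg_left (ih u (by omega) (by omega)).1 hε0)
        (ih (n - 1 - u) (by omega) (by omega)).2 (norm_nonneg _) (by positivity)).trans (le_of_eq ?_)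
      rw [show n - 1 = u + (n - 1 - u) by omega, pow_add, show u + (n - 1 - u) - u = n - 1 - u by omega]
      ring
    have e2 : (M : ℝ) * (n * errBound m α β o H M n) ≤ s * ((n : ℝ) + 1)⁻¹ ^ 2 := by
      rw [inv_pow, ← div_eq_mul_inv, le_div_iff₀ (by positivity)]
      refine le_trans ?_ ((hlt n hnP).trans (min_le_right _ _))
      rw [show (M : ℝ) * (n * errBound m α β o H M n) * ((n : ℝ) + 1) ^ 2 =
        (M : ℝ) * (n * ((n : ℝ) + 1) ^ 2 * errBound m α β o H M n) by ring]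
      have := hE0 n
      gcongr
      linarith
    have t1 : (M : ℝ) * (ε * ‖eA (p := p) (o := o) c n‖) ≤ s * (((n : ℝ) + 1)⁻¹ ^ 2 * ρ ^ n) := by
      rw [← mul_assoc]
      exact mul_le_mul hs hA (norm_nonneg _) hs0.le
    have t2 : (M : ℝ) * (ε * (3 * s * ρ ^ (n - 1)) * (8 * ((n : ℝ) + 1)⁻¹ ^ 2)) ≤
        s * (((n : ℝ) + 1)⁻¹ ^ 2 * ρ ^ n) ∨ n = 0 := by
      rcases Nat.eq_zero_or_pos n with hn | hn
      · exact Or.inr hn
      left
      rw [show (M : ℝ) * (ε * (3 * s * ρ ^ (n - 1)) * (8 * ((n : ℝ) + 1)⁻¹ ^ 2)) =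
        (M : ℝ) * ε * (((n : ℝ) + 1)⁻¹ ^ 2 * (ρ ^ (n - 1) * (24 * s))) by ring]
      refine mul_le_mul hs (mul_le_mul_of_nonneg_left ?_ (by positivity)) (by positivity) hs0.le
      rw [← mul_pow_sub_one hn.ne' ρ, mul_comm ρ]
      gcongr
    have t3 : (M : ℝ) * (n * errBound m α β o H M n * ρ ^ n) ≤
        s * (((n : ℝ) + 1)⁻¹ ^ 2 * ρ ^ n) := by
      rw [← mul_assoc s, ← mul_assoc (M : ℝ)]
      exact mul_le_mul_of_nonneg_right e2 (by positivity)
    rcases t2 with t2 | t2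
    · have := mul_le_mul_of_nonneg_left hconv (Nat.cast_nonneg (α := ℝ) M)
      rw [mul_add, mul_add]
      linarith
    · subst t2
      simp only [Finset.range_zero, Finset.sum_empty, add_zero, Nat.cast_zero, zero_mul] at t1 ⊢
      simp at t1 ⊢
      linarith

end

end Vale.Agent.P095.Amen.Random
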