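import Vale.Agent.P095.Amen.Random.Covar

/-!
# P095: the covariance of two partial traces
-/

namespace Vale.Agent.P095.Amen.Random

open MvPolynomial Finset Matrix
open scoped Matrix.Norms.L2Operator

noncomputable section

variable {m α β p o : Type} [Fintype m] [Fintype α] [Fintype β] [Fintype p] [Fintype o]
  [DecidableEq α] [DecidableEq β] [DecidableEq p] [DecidableEq o] [DecidableEq m] [Nonempty o]
  [Nonempty p] (c : m → Matrix β α ℂ)

/-- The trace of `W ^ n`. -/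
def gTr (n : ℕ) : GPoly m p o := (Fintype.card p : ℂ) • ∑ x, gA c n x x

omit [DecidableEq β] [DecidableEq o] [DecidableEq m] [Nonempty o] in
theorem evalR_gTr (z : GIdx m p o → ℝ) (n : ℕ) :
    evalR z (gTr c n) = Matrix.trace (eW c z ^ n) := by
  rw [← map_gW_pow]
  simp only [gTr, gA, Matrix.of_apply, Matrix.trace, Matrix.diag, Matrix.map_apply, smul_eq_C_mul,
    map_mul, map_sum, Fintype.sum_prod_type, Finset.mul_sum]
  refine Finset.sum_congr rfl fun x _ => Finset.sum_congr rfl fun b _ => ?_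
  simp [evalR]

omit [DecidableEq β] [DecidableEq o] [DecidableEq m] [Nonempty o] [Nonempty p] in
theorem re_gE_gTr_le (n : ℕ) : (gE (gTr (p := p) (o := o) c n)).re ≤
    Fintype.card p * Fintype.card α * ‖(gA (p := p) (o := o) c n).map gE‖ := by
  rw [gTr, map_smul, map_sum, smul_eq_mul]
  refine (Complex.re_le_norm _).trans ?_
  rw [norm_mul, Complex.norm_natCast, mul_assoc]
  refine mul_le_mul_of_nonneg_left ((norm_sum_le _ _).trans ?_) (Nat.cast_nonneg _)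
  rw [← nsmul_eq_mul, ← Finset.card_univ]
  exact Finset.sum_le_card_nsmul _ _ _ fun x _ =>
    norm_entry_le ((gA (p := p) (o := o) c n).map gE) x x

omit [DecidableEq β] [DecidableEq o] [DecidableEq m] [Nonempty o] in
theorem re_evalR_gTr_nonneg (z : GIdx m p o → ℝ) (q : ℕ) :
    0 ≤ (evalR z (gTr c (2 * q))).re := by
  rw [evalR_gTr]
  rcases q with - | q
  · simp [Matrix.trace]
    positivity
  · exact le_trans (by positivity) (norm_eW_pow_le_trace c z q)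

omit [DecidableEq β] [DecidableEq o] [DecidableEq m] [Nonempty o] in
theorem norm_eW_pow_le_gTr (z : GIdx m p o → ℝ) {q : ℕ} (hq : 0 < q) :
    ‖eW c z‖ ^ (2 * q) ≤ (evalR z (gTr c (2 * q))).re := by
  obtain ⟨k, rfl⟩ : ∃ k, q = k + 1 := ⟨q - 1, by omega⟩
  rw [evalR_gTr]
  exact norm_eW_pow_le_trace c z k

/-- The elementary inequality behind the error term: `H` absorbs the missing degrees. -/
theorem pair_le {ρ H μ t t' σ σ' : ℝ} {u v n : ℕ} (hρ : 0 < ρ) (hH : 1 ≤ H) (hHρ : 1 ≤ H * ρ)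
    (hμ : 1 ≤ μ) (ht0 : 0 ≤ t) (ht'0 : 0 ≤ t') (hσ0 : 0 ≤ σ) (hσ'0 : 0 ≤ σ') (hv : 0 < v)
    (huv : u + v + 1 = n) (ht : t ≤ ρ * μ) (ht' : t' ≤ ρ * μ) (hσ : σ ^ 2 ≤ 1 + t)
    (hσ' : σ' ^ 2 ≤ 1 + t') :
    (t ^ u * σ + u * (t ^ (u - 1) * σ ^ 3)) * (t' ^ (v - 1) * σ') ≤
      8 * H ^ 2 * n * (ρ * μ) ^ (n - 1) := by
  set r := ρ * μ with hr
  have hr0 : 0 ≤ r := by positivity
  have h1 : 1 ≤ H * r := by
    calc (1 : ℝ) ≤ H * ρ := hHρ
      _ ≤ H * ρ * μ := le_mul_of_one_le_right (by positivity) hμ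
      _ = H * r := by rw [hr]; ring
  have hr1 : r ≤ H * r := le_mul_of_one_le_left hr0 hH
  have s1 : σ ^ 2 ≤ 2 * H * r := by linarith
  have s2 : σ * σ' ≤ 2 * H * r := by nlinarith [sq_nonneg (σ - σ')]
  have hn : (u : ℝ) + 2 ≤ n := by
    rw [← huv]; exact_mod_cast (by omega : u + 2 ≤ u + v + 1)
  have hH2 : 2 * H ≤ 8 * H ^ 2 * n := by
    calc 2 * H = 2 * H * 1 * 1 := by ring
      _ ≤ 8 * H * H * n := by gcongr <;> linarith
      _ = _ := by ring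
  have hv' : t' ^ (v - 1) ≤ r ^ (v - 1) := pow_le_pow_left₀ ht'0 ht' _
  rcases u with - | k
  · have e : n - 1 = v - 1 + 1 := by omega
    rw [e, pow_succ]
    simp only [pow_zero, one_mul, Nat.cast_zero, zero_mul, add_zero]
    calc σ * (t' ^ (v - 1) * σ') = t' ^ (v - 1) * (σ * σ') := by ring
      _ ≤ r ^ (v - 1) * (2 * H * r) := mul_le_mul hv' s2 (by positivity) (by positivity)
      _ ≤ _ := by
        rw [show r ^ (v - 1) * (2 * H * r) = 2 * H * (r ^ (v - 1) * r) by ring]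
        exact mul_le_mul_of_nonneg_right hH2 (by positivity)
  · have e : n - 1 = k + (v - 1) + 2 := by omega
    rw [e, show r ^ (k + (v - 1) + 2) = r ^ k * r ^ (v - 1) * r ^ 2 by rw [pow_add, pow_add]]
    simp only [Nat.add_sub_cancel]
    push_cast at hn ⊢
    have s3 : t * (σ * σ') ≤ r * (2 * H * r) := mul_le_mul ht s2 (by positivity) hr0
    have s4 : σ ^ 3 * σ' ≤ (2 * H * r) * (2 * H * r) := by
      rw [show σ ^ 3 * σ' = σ ^ 2 * (σ * σ') by ring]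
      exact mul_le_mul s1 s2 (by positivity) (by positivity)
    calc (t ^ (k + 1) * σ + (k + 1) * (t ^ k * σ ^ 3)) * (t' ^ (v - 1) * σ') =
          t ^ k * t' ^ (v - 1) * (t * (σ * σ') + (k + 1) * (σ ^ 3 * σ')) := by ring
      _ ≤ r ^ k * r ^ (v - 1) * (r * (2 * H * r) + (k + 1) * ((2 * H * r) * (2 * H * r))) := by
        gcongr
      _ = r ^ k * r ^ (v - 1) * r ^ 2 * (2 * H + (k + 1) * (4 * H ^ 2)) := by ring
      _ ≤ r ^ k * r ^ (v - 1) * r ^ 2 * (8 * H ^ 2 * n) := by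
        refine mul_le_mul_of_nonneg_left ?_ (by positivity)
        nlinarith
      _ = _ := by ring

/-- The square roots of the two gradient bounds. -/
theorem sqrt_pair_le {g g' μ' b a P O v X Y : ℝ} (hg : g ≤ 4 * μ' * b ^ 2 * (P / O ^ 3) * X ^ 2)
    (hg' : g' ≤ 2 * μ' * v ^ 2 * a ^ 2 * (O * P)⁻¹ * Y ^ 2) (hg0 : 0 ≤ g) (hg'0 : 0 ≤ g')
    (hO : 0 < O) (hP : 0 < P) (hX : 0 ≤ X) (hY : 0 ≤ Y) (hμ : 0 ≤ μ') (hb : 0 ≤ b) (ha : 0 ≤ a)
    (hv : 0 ≤ v) : Real.sqrt g * Real.sqrt g' ≤ 3 * μ' * v * b * a / O ^ 2 * (X * Y) := by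
  rw [← Real.sqrt_mul hg0, Real.sqrt_le_iff]
  refine ⟨by positivity, (mul_le_mul hg hg' hg'0 (hg0.trans hg)).trans ?_⟩
  have : 0 ≤ (μ' * v * b * a / O ^ 2 * (X * Y)) ^ 2 := sq_nonneg _
  field_simp at this ⊢
  nlinarith

/-- The numbers in the pointwise bound. -/
theorem combine_le {g g' μ' D P O ρ H t t' σ σ' T T' : ℝ} {u v n q : ℕ}
    (hg : g ≤ 4 * μ' * D ^ 2 * (P / O ^ 3) * (t ^ u * σ + u * (t ^ (u - 1) * σ ^ 3)) ^ 2)
    (hg' : g' ≤ 2 * μ' * (v : ℝ) ^ 2 * D ^ 2 * (O * P)⁻¹ * (t' ^ (v - 1) * σ') ^ 2)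
    (hg0 : 0 ≤ g) (hg'0 : 0 ≤ g') (hμ' : 0 ≤ μ') (hD : 0 ≤ D) (hO : 0 < O) (hP : 0 < P)
    (hρ : 0 < ρ) (hH : 1 ≤ H) (hHρ : 1 ≤ H * ρ) (huv : u + v + 1 = n) (hv : 0 < v)
    (hqn : n - 1 ≤ 2 * q) (ht0 : 0 ≤ t) (ht'0 : 0 ≤ t') (hσ0 : 0 ≤ σ) (hσ'0 : 0 ≤ σ')
    (hσ : σ ^ 2 ≤ 1 + t) (hσ' : σ' ^ 2 ≤ 1 + t') (hT0 : 0 ≤ T) (hT'0 : 0 ≤ T')
    (hT : 0 < q → t ^ (2 * q) ≤ T) (hT' : 0 < q → t' ^ (2 * q) ≤ T') :
    Real.sqrt g * Real.sqrt g' ≤
      24 * μ' * D ^ 2 * (n : ℝ) ^ 2 * H ^ 2 * ρ ^ (n - 1) / O ^ 2 *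
        (1 + (ρ ^ (2 * q))⁻¹ * (T + T')) := by
  set μ := max 1 (max (t / ρ) (t' / ρ)) with hμ
  have hμ1 : 1 ≤ μ := le_max_left _ _
  have htμ : t ≤ ρ * μ := by
    rw [← div_le_iff₀' hρ]; exact (le_max_left _ _).trans (le_max_right _ _)
  have ht'μ : t' ≤ ρ * μ := by
    rw [← div_le_iff₀' hρ]; exact (le_max_right _ _).trans (le_max_right _ _)
  refine (sqrt_pair_le hg hg' hg0 hg'0 hO hP (by positivity) (by positivity) hμ' hD hD
    (Nat.cast_nonneg _)).trans ?_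
  refine (mul_le_mul_of_nonneg_left (pair_le hρ hH hHρ hμ1 ht0 ht'0 hσ0 hσ'0 hv huv htμ ht'μ hσ
    hσ') (by positivity)).trans ?_
  have hμq : μ ^ (n - 1) ≤ 1 + (ρ ^ (2 * q))⁻¹ * (T + T') := by
    refine (pow_le_pow_right₀ hμ1 hqn).trans ?_
    rcases Nat.eq_zero_or_pos q with rfl | hq
    · simp only [Nat.mul_zero, pow_zero]
      simpa using add_nonneg hT0 hT'0
    have hi : 0 ≤ (ρ ^ (2 * q))⁻¹ := by positivity
    have m1 : (t / ρ) ^ (2 * q) ≤ (ρ ^ (2 * q))⁻¹ * T := by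
      rw [div_pow, div_eq_inv_mul]; exact mul_le_mul_of_nonneg_left (hT hq) hi
    have m2 : (t' / ρ) ^ (2 * q) ≤ (ρ ^ (2 * q))⁻¹ * T' := by
      rw [div_pow, div_eq_inv_mul]; exact mul_le_mul_of_nonneg_left (hT' hq) hi
    have n1 := mul_nonneg hi hT0
    have n2 := mul_nonneg hi hT'0
    rw [mul_add]
    rcases max_choice 1 (max (t / ρ) (t' / ρ)) with h | h
    · rw [hμ, h, one_pow]; linarith
    rcases max_choice (t / ρ) (t' / ρ) with h' | h'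
    · rw [hμ, h, h']; linarith
    · rw [hμ, h, h']; linarith
  have hvn : (v : ℝ) ≤ n := by exact_mod_cast (by omega : v ≤ n)
  calc 3 * μ' * v * D * D / O ^ 2 * (8 * H ^ 2 * n * (ρ * μ) ^ (n - 1))
      ≤ 3 * μ' * n * D * D / O ^ 2 * (8 * H ^ 2 * n * (ρ * μ) ^ (n - 1)) := by gcongr
    _ = 24 * μ' * D ^ 2 * (n : ℝ) ^ 2 * H ^ 2 * ρ ^ (n - 1) / O ^ 2 * μ ^ (n - 1) := by
        rw [mul_pow]; ring
    _ ≤ _ := mul_le_mul_of_nonneg_left hμq (by positivity)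

/-- The covariance of entries of `B u` and `A v`. -/
theorem norm_cov_gB_gA_le (hc : ‖colSum c‖ ≤ 1) (hop : Fintype.card o ≤ Fintype.card p)
    {ρ H : ℝ} (hρ : 0 < ρ) (hH : 1 ≤ H) (hHρ : 1 ≤ H * ρ) {u v n q : ℕ} (huv : u + v + 1 = n)
    (hqn : n - 1 ≤ 2 * q) (ha : ‖(gA (p := p) (o := o) c (2 * q)).map gE‖ ≤ ρ ^ (2 * q))
    (x y : β) (x' y' : α) :
    ‖cov (gB (p := p) (o := o) c u x y) (gA (p := p) (o := o) c v x' y')‖ ≤
      144 * Fintype.card m * ((Fintype.card β * Fintype.card α : ℕ) : ℝ) ^ 2 * (n : ℝ) ^ 2 * H ^ 2 *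
        ρ ^ (n - 1) * (1 + Fintype.card p * Fintype.card α) / (Fintype.card o : ℝ) ^ 2 := by
  have he : ∀ i a b, ‖c i a b‖ ≤ 1 := norm_coeff_le c hc
  have hO : (0 : ℝ) < Fintype.card o := by exact_mod_cast Fintype.card_pos
  have hP : (0 : ℝ) < Fintype.card p := by exact_mod_cast Fintype.card_pos
  set D : ℝ := ((Fintype.card β * Fintype.card α : ℕ) : ℝ) with hD
  set C0 : ℝ := 24 * Fintype.card m * D ^ 2 * (n : ℝ) ^ 2 * H ^ 2 * ρ ^ (n - 1) /
    (Fintype.card o : ℝ) ^ 2 with hC0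
  have hC0' : 0 ≤ C0 := by positivity
  refine (norm_cov_le _ _ (C0 * (3 * (1 + Fintype.card p * Fintype.card α))) fun θ => ?_).trans
    (le_of_eq (by rw [hC0]; ring))
  refine ⟨(C0 : ℂ) • (1 + (((ρ ^ (2 * q))⁻¹ : ℝ) : ℂ) •
    (fst' (gTr c (2 * q)) + rot θ (gTr c (2 * q)))), ?_, fun z => ?_⟩
  · rw [map_smul, map_add, map_smul, map_add, gE_one, gE_fst', gE_rot, smul_eq_mul, smul_eq_mul,
      Complex.re_ofReal_mul, Complex.add_re, Complex.re_ofReal_mul, Complex.add_re, Complex.one_re]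
    refine mul_le_mul_of_nonneg_left ?_ hC0'
    have h1 : (ρ ^ (2 * q))⁻¹ * (gE (gTr (p := p) (o := o) c (2 * q))).re ≤
        Fintype.card p * Fintype.card α := by
      rw [inv_mul_le_iff₀ (by positivity)]
      refine (re_gE_gTr_le c _).trans ?_
      exact mul_le_mul_of_nonneg_left ha (by positivity) |>.trans (le_of_eq (by ring))
    rw [mul_add]
    have : (0 : ℝ) ≤ Fintype.card p * Fintype.card α := by positivity
    linarith
  · have hQ : (evalR z ((C0 : ℂ) • (1 + (((ρ ^ (2 * q))⁻¹ : ℝ) : ℂ) •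
        (fst' (gTr c (2 * q)) + rot θ (gTr c (2 * q)))))).re = C0 * (1 + (ρ ^ (2 * q))⁻¹ *
        ((evalR (z ∘ Sum.inl) (gTr c (2 * q))).re + (evalR (rotPt θ z) (gTr c (2 * q))).re)) := by
      simp only [smul_eq_C_mul, map_mul, map_add, map_one, evalR_fst', evalR_rot]
      simp only [evalR, eval_C, Complex.re_ofReal_mul, Complex.add_re, Complex.one_re]
    rw [hQ]
    have hT := re_evalR_gTr_nonneg c (z ∘ Sum.inl) q
    have hT' := re_evalR_gTr_nonneg c (rotPt θ z) q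
    rcases Nat.eq_zero_or_pos v with hv | hv
    · subst hv
      have h0 := gradSq_gA_le c (rotPt θ z) he hop 0 x' y'
      simp only [Nat.cast_zero, ne_eq, OfNat.ofNat_ne_zero, not_false_eq_true, zero_pow, mul_zero,
        zero_mul] at h0
      rw [Real.sqrt_eq_zero'.2 h0, mul_zero]
      exact mul_nonneg hC0' (by positivity)
    exact combine_le (gradSq_gB_le c _ he hop u x y) (gradSq_gA_le c _ he hop v x' y')
      (Finset.sum_nonneg fun _ _ => sq_nonneg _) (Finset.sum_nonneg fun _ _ => sq_nonneg _)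
      (Nat.cast_nonneg _) (Nat.cast_nonneg _) hO hP hρ hH hHρ huv hv hqn (norm_nonneg _)
      (norm_nonneg _) (norm_nonneg _) (norm_nonneg _) (norm_eS_sq_le c _ hc)
      (norm_eS_sq_le c _ hc) hT hT' (norm_eW_pow_le_gTr c _) (norm_eW_pow_le_gTr c _)

end

end Vale.Agent.P095.Amen.Random
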