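import Vale.Agent.P095.Amen.Random.Model

/-!
# P095: integration by parts for the partial traces

`E A (n+1) = ∑ E[η(B u) A v]` and `E B n = M (η'(E A n) + ∑ E[η'(A u) B v])`, exactly.
-/

namespace Vale.Agent.P095.Amen.Random

open MvPolynomial Finset Matrix

noncomputable section

variable {m α β p o : Type} [Fintype m] [Fintype α] [Fintype β] [Fintype p] [Fintype o]
  [DecidableEq α] [DecidableEq β] [DecidableEq p] [DecidableEq o] [DecidableEq m] [Nonempty o]
  (c : m → Matrix β α ℂ)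

/-- Where `S` moves in the entry `v`. -/
def gUnit (v : m × o × p) : Matrix (β × o) (α × p) (GPoly m p o) :=
  Matrix.of fun x y => if v.2.1 = x.2 ∧ v.2.2 = y.2 then
    C ((Fintype.card o : ℂ)⁻¹ * c v.1 x.1 y.1) else 0

/-- Where `S*` moves in the conjugate of the entry `v`. -/
def gUnitC (v : m × o × p) : Matrix (α × p) (β × o) (GPoly m p o) :=
  Matrix.of fun y x => if v.2.1 = x.2 ∧ v.2.2 = y.2 then
    C ((Fintype.card o : ℂ)⁻¹ * star (c v.1 x.1 y.1)) else 0

omit [Fintype α] [Fintype β] [Fintype p] [DecidableEq α] [DecidableEq β] in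
theorem map_gD_gS (v : m × o × p) : ((gS (p := p) (o := o) c)).map (gD v) = gUnit c v := by
  ext x y
  simp only [Matrix.map_apply, gS, gUnit, Matrix.of_apply, map_sum, Derivation.map_smul, gD_gY]
  rw [Finset.sum_eq_single v.1 (fun i _ hi => by
    rw [if_neg, smul_zero]; exact fun e => hi (congrArg Prod.fst e).symm) (by simp)]
  obtain ⟨i, a, b⟩ := v
  simp only [Prod.mk.injEq, true_and, smul_eq_C_mul]
  split_ifs <;> simp [mul_comm]

omit [Fintype α] [Fintype β] [Fintype p] [DecidableEq α] [DecidableEq β] in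
theorem map_gDc_gSc (v : m × o × p) : ((gSc (p := p) (o := o) c)).map (gDc v) = gUnitC c v := by
  ext y x
  simp only [Matrix.map_apply, gSc, gUnitC, Matrix.of_apply, map_sum, Derivation.map_smul, gDc_gYc]
  rw [Finset.sum_eq_single v.1 (fun i _ hi => by
    rw [if_neg, smul_zero]; exact fun e => hi (congrArg Prod.fst e).symm) (by simp)]
  obtain ⟨i, a, b⟩ := v
  simp only [Prod.mk.injEq, true_and, smul_eq_C_mul]
  split_ifs <;> simp [mul_comm]

omit [Fintype α] [Fintype β] [Fintype p] [DecidableEq α] [DecidableEq β] [DecidableEq p]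
  [DecidableEq o] [DecidableEq m] [Nonempty o] in
theorem map_gD_gSc (v : m × o × p) : ((gSc (p := p) (o := o) c)).map (gD v) = 0 := by
  ext y x; simp [gSc, gD_gYc]

omit [Fintype α] [Fintype β] [Fintype p] [DecidableEq α] [DecidableEq β] [DecidableEq p]
  [DecidableEq o] [DecidableEq m] [Nonempty o] in
theorem map_gDc_gS (v : m × o × p) : ((gS (p := p) (o := o) c)).map (gDc v) = 0 := by
  ext x y; simp [gS, gDc_gY]

omit [Fintype p] [Fintype α] [DecidableEq α] [DecidableEq β] in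
theorem map_gD_gW (v : m × o × p) : ((gW (p := p) (o := o) c)).map (gD v) = (gSc (p := p) (o := o) c) * gUnit c v := by
  rw [gW, Matrix.map_sub (f := gD v) (hf := map_sub _), map_mul_deriv, map_gD_gSc, map_gD_gS,
    Matrix.zero_mul, zero_add, sub_eq_self]
  ext x y
  simp only [Matrix.map_apply, Matrix.of_apply, Matrix.zero_apply]
  split_ifs <;> simp

omit [Fintype p] [Fintype α] [DecidableEq α] [DecidableEq β] in
theorem map_gDc_gW (v : m × o × p) : ((gW (p := p) (o := o) c)).map (gDc v) = gUnitC c v * (gS (p := p) (o := o) c) := by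
  rw [gW, Matrix.map_sub (f := gDc v) (hf := map_sub _), map_mul_deriv, map_gDc_gS, map_gDc_gSc,
    Matrix.mul_zero, add_zero, sub_eq_self]
  ext x y
  simp only [Matrix.map_apply, Matrix.of_apply, Matrix.zero_apply]
  split_ifs <;> simp

omit [DecidableEq α] [DecidableEq β] [DecidableEq m] [Nonempty o] [Fintype m] in
theorem mul_gUnit_mul_apply {I J : Type} (P : Matrix I (β × o) (GPoly m p o))
    (Q : Matrix (α × p) J (GPoly m p o)) (v : m × o × p) (s : I) (t : J) :
    (P * gUnit c v * Q) s t = ∑ x₁, ∑ y₁,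
      ((Fintype.card o : ℂ)⁻¹ * c v.1 x₁ y₁) • (P s (x₁, v.2.1) * Q (y₁, v.2.2) t) := by
  have hPU : ∀ z : α × p, (P * gUnit c v) s z = if v.2.2 = z.2 then
      ∑ x₁, P s (x₁, v.2.1) * C ((Fintype.card o : ℂ)⁻¹ * c v.1 x₁ z.1) else 0 := fun z => by
    rw [Matrix.mul_apply, Fintype.sum_prod_type]
    rcases eq_or_ne v.2.2 z.2 with h | h <;> simp [gUnit, h]
  rw [Matrix.mul_apply, Fintype.sum_prod_type]
  simp only [hPU, ite_mul, zero_mul, Finset.sum_ite_eq, Finset.mem_univ, if_true, Finset.sum_mul]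
  rw [Finset.sum_comm]
  refine Finset.sum_congr rfl fun x₁ _ => Finset.sum_congr rfl fun y₁ _ => ?_
  rw [smul_eq_C_mul]
  ring

omit [DecidableEq α] [DecidableEq β] [DecidableEq m] [Nonempty o] [Fintype m] in
theorem mul_gUnitC_mul_apply {I J : Type} (P : Matrix I (α × p) (GPoly m p o))
    (Q : Matrix (β × o) J (GPoly m p o)) (v : m × o × p) (s : I) (t : J) :
    (P * gUnitC c v * Q) s t = ∑ x₁, ∑ y₁,
      ((Fintype.card o : ℂ)⁻¹ * star (c v.1 x₁ y₁)) • (P s (y₁, v.2.2) * Q (x₁, v.2.1) t) := by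
  have hPU : ∀ z : β × o, (P * gUnitC c v) s z = if v.2.1 = z.2 then
      ∑ y₁, P s (y₁, v.2.2) * C ((Fintype.card o : ℂ)⁻¹ * star (c v.1 z.1 y₁)) else 0 := fun z => by
    rw [Matrix.mul_apply, Fintype.sum_prod_type]
    rcases eq_or_ne v.2.1 z.2 with h | h <;> simp [gUnitC, h]
  rw [Matrix.mul_apply, Fintype.sum_prod_type]
  simp only [hPU, ite_mul, zero_mul, Finset.sum_ite_eq, Finset.mem_univ, if_true, Finset.sum_mul]
  refine Finset.sum_congr rfl fun x₁ _ => Finset.sum_congr rfl fun y₁ _ => ?_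
  rw [smul_eq_C_mul]
  ring

/-- The derivative of `S W ^ n` at the entry `(i, a, b)`, at `((x', a), (y, b))`. -/
theorem gD_gT_apply (n : ℕ) (i : m) (a : o) (b : p) (x' : β) (y : α) :
    gD (i, a, b) (((gT (p := p) (o := o) c) n) (x', a) (y, b)) =
      (∑ y₁, ((Fintype.card o : ℂ)⁻¹ * c i x' y₁) • ((gW (p := p) (o := o) c) ^ n) (y₁, b) (y, b)) +
        ∑ u ∈ range n, ∑ x₁, ∑ y₁, ((Fintype.card o : ℂ)⁻¹ * c i x₁ y₁) •
          ((gM (p := p) (o := o) c) u (x', a) (x₁, a) * ((gW (p := p) (o := o) c) ^ (n - 1 - u)) (y₁, b) (y, b)) := by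
  have h : ((gT (p := p) (o := o) c) n).map (gD (i, a, b)) =
      (1 : Matrix (β × o) (β × o) (GPoly m p o)) * gUnit c (i, a, b) * (gW (p := p) (o := o) c) ^ n +
      ∑ u ∈ range n, (gM (p := p) (o := o) c) u * gUnit c (i, a, b) * (gW (p := p) (o := o) c) ^ (n - 1 - u) := by
    rw [gT, map_mul_deriv, map_gD_gS, map_pow_deriv, map_gD_gW, Matrix.one_mul, Matrix.mul_sum]
    simp only [gM, gT, Matrix.mul_assoc]
  rw [← Matrix.map_apply (f := gD (i, a, b)), h, Matrix.add_apply, Matrix.sum_apply]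
  congr 1
  · rw [mul_gUnit_mul_apply, Finset.sum_eq_single x' (fun x _ hx => by
      simp [hx.symm]) (by simp)]
    simp
  · exact Finset.sum_congr rfl fun u _ => mul_gUnit_mul_apply c _ _ _ _ _

/-- The recursion for `A`. -/
theorem gE_gA_succ [Nonempty p] (n : ℕ) (x y : α) :
    gE ((gA (p := p) (o := o) c) (n + 1) x y) =
      ∑ u ∈ range n, gE ((etaP c ((gB (p := p) (o := o) c) u) * (gA (p := p) (o := o) c) (n - 1 - u)) x y) := by
  have hS : ∀ (b : p) (x' : β) (a : o), gE ((gSc (p := p) (o := o) c) (x, b) (x', a) * ((gT (p := p) (o := o) c) n) (x', a) (y, b)) =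
      ∑ i, star (c i x' x) * gE (gD (i, a, b) (((gT (p := p) (o := o) c) n) (x', a) (y, b))) := fun b x' a => by
    simp only [gSc, Finset.sum_mul, map_sum, smul_mul_assoc, map_smul, gE_gYc_mul, smul_eq_mul]
  have hW : (gW (p := p) (o := o) c) ^ (n + 1) = (gSc (p := p) (o := o) c) * (gT (p := p) (o := o) c) n - (Matrix.of fun s t : α × p => if s.2 = t.2 then
      (C (colSum c s.1 t.1) : GPoly m p o) else 0) * (gW (p := p) (o := o) c) ^ n := by
    rw [pow_succ', gT, ← Matrix.mul_assoc, ← Matrix.sub_mul]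
    rfl
  have hfirst : ∀ b : p, gE (((gSc (p := p) (o := o) c) * (gT (p := p) (o := o) c) n : Matrix (α × p) (α × p) (GPoly m p o)) (x, b) (y, b)) =
      ∑ x', ∑ a, ∑ i, star (c i x' x) * gE (gD (i, a, b) (((gT (p := p) (o := o) c) n) (x', a) (y, b))) := fun b => by
    rw [Matrix.mul_apply, map_sum, Fintype.sum_prod_type]
    exact Finset.sum_congr rfl fun x' _ => Finset.sum_congr rfl fun a _ => hS b x' a
  have hZ : ∀ b : p, gE (((Matrix.of fun s t : α × p => if s.2 = t.2 then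
      (C (colSum c s.1 t.1) : GPoly m p o) else 0) * (gW (p := p) (o := o) c) ^ n) (x, b) (y, b)) =
      ∑ x', ∑ a : o, ∑ i, star (c i x' x) *
        gE (∑ y₁, ((Fintype.card o : ℂ)⁻¹ * c i x' y₁) • ((gW (p := p) (o := o) c) ^ n) (y₁, b) (y, b)) := fun b => by
    have hcard : (Fintype.card o : ℂ) ≠ 0 := by simp
    rw [Matrix.mul_apply, Fintype.sum_prod_type]
    simp only [Matrix.of_apply, ite_mul, zero_mul, Finset.sum_ite_eq, Finset.mem_univ, if_true,
      ← smul_eq_C_mul, map_sum, map_smul, smul_eq_mul, colSum, Matrix.sum_apply, Matrix.mul_apply,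
      Matrix.conjTranspose_apply, Finset.sum_mul, Finset.mul_sum, Finset.sum_const,
      Finset.card_univ, nsmul_eq_mul]
    rw [Finset.sum_comm]
    conv_rhs => rw [Finset.sum_comm]
    refine Finset.sum_congr rfl fun i _ => ?_
    rw [Finset.sum_comm]
    refine Finset.sum_congr rfl fun x' _ => Finset.sum_congr rfl fun y₁ _ => ?_
    field_simp
  set N : ℂ := (Fintype.card o : ℂ)⁻¹ with hN
  set P : ℂ := (Fintype.card p : ℂ)⁻¹ with hP
  have hrhs : ∀ u, gE ((etaP c ((gB (p := p) (o := o) c) u) * (gA (p := p) (o := o) c) (n - 1 - u)) x y) = ∑ b : p, ∑ x', ∑ a : o, ∑ i,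
      star (c i x' x) * ∑ x₁, ∑ y₁, P * (N * c i x₁ y₁) *
        gE ((gM (p := p) (o := o) c) u (x', a) (x₁, a) * ((gW (p := p) (o := o) c) ^ (n - 1 - u)) (y₁, b) (y, b)) := fun u => by
    simp only [etaP, gB, gA, liftC, Matrix.sum_apply, Matrix.mul_apply, Matrix.of_apply,
      Matrix.conjTranspose_apply, ← smul_eq_C_mul, Finset.sum_mul, Finset.mul_sum, Finset.smul_sum,
      smul_mul_assoc, mul_smul_comm, smul_smul, map_sum, map_smul, smul_eq_mul, mul_comm _ (C _)]
    simp only [← Finset.sum_product', Finset.univ_product_univ]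
    exact Fintype.sum_equiv
      ⟨fun q => (q.2.1, q.2.2.2.2.1, q.2.2.2.2.2, q.2.2.1, q.2.2.2.1, q.1),
        fun q => (q.2.2.2.2.2, q.1, q.2.2.2.1, q.2.2.2.2.1, q.2.1, q.2.2.1),
        fun q => rfl, fun q => rfl⟩ _ _ fun q => by simp only [hN, hP, Equiv.coe_fn_mk]; ring
  rw [show (gA (p := p) (o := o) c) (n + 1) x y = P • ∑ b : p, ((gW (p := p) (o := o) c) ^ (n + 1)) (x, b) (y, b) from rfl, hW]
  simp only [Matrix.sub_apply, map_smul, map_sum, map_sub, hfirst, hZ, gD_gT_apply, map_add,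
    mul_add, Finset.sum_add_distrib, add_sub_cancel_left, hrhs, ← hN, smul_eq_mul]
  rw [Finset.mul_sum, Finset.sum_comm (s := range n)]
  refine Finset.sum_congr rfl fun b _ => ?_
  rw [Finset.mul_sum, Finset.sum_comm (s := range n)]
  refine Finset.sum_congr rfl fun x' _ => ?_
  rw [Finset.mul_sum, Finset.sum_comm (s := range n)]
  refine Finset.sum_congr rfl fun a _ => ?_
  rw [Finset.mul_sum, Finset.sum_comm (s := range n)]
  refine Finset.sum_congr rfl fun i _ => ?_
  simp only [Finset.mul_sum]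
  refine Finset.sum_congr rfl fun u _ => Finset.sum_congr rfl fun x₁ _ =>
    Finset.sum_congr rfl fun y₁ _ => ?_
  ring

/-- The derivative of `W ^ n S*` at the conjugate of the entry `(i, a, b)`, at
`((y', b), (y, a))`. -/
theorem gDc_pow_gSc_apply (n : ℕ) (i : m) (a : o) (b : p) (y' : α) (y : β) :
    gDc (i, a, b) (((gW (p := p) (o := o) c) ^ n * (gSc (p := p) (o := o) c) : Matrix (α × p) (β × o) (GPoly m p o)) (y', b) (y, a)) =
      (∑ y₂, ((Fintype.card o : ℂ)⁻¹ * star (c i y y₂)) • ((gW (p := p) (o := o) c) ^ n) (y', b) (y₂, b)) +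
        ∑ u ∈ range n, ∑ x₂, ∑ y₂, ((Fintype.card o : ℂ)⁻¹ * star (c i x₂ y₂)) •
          (((gW (p := p) (o := o) c) ^ u) (y', b) (y₂, b) * (gM (p := p) (o := o) c) (n - 1 - u) (x₂, a) (y, a)) := by
  have h : ((gW (p := p) (o := o) c) ^ n * (gSc (p := p) (o := o) c) : Matrix (α × p) (β × o) (GPoly m p o)).map (gDc (i, a, b)) =
      (gW (p := p) (o := o) c) ^ n * gUnitC c (i, a, b) * (1 : Matrix (β × o) (β × o) (GPoly m p o)) +
      ∑ u ∈ range n, (gW (p := p) (o := o) c) ^ u * gUnitC c (i, a, b) * (gM (p := p) (o := o) c) (n - 1 - u) := by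
    rw [map_mul_deriv, map_gDc_gSc, map_pow_deriv, map_gDc_gW, Matrix.mul_one, Matrix.sum_mul,
      add_comm]
    simp only [gM, gT, Matrix.mul_assoc]
  rw [← Matrix.map_apply (f := gDc (i, a, b)), h, Matrix.add_apply, Matrix.sum_apply]
  congr 1
  · rw [mul_gUnitC_mul_apply, Finset.sum_eq_single y (fun x _ hx => by simp [hx]) (by simp)]
    simp
  · exact Finset.sum_congr rfl fun u _ => mul_gUnitC_mul_apply c _ _ _ _ _

/-- The recursion for `B`. -/
theorem gE_gB [Nonempty p] (n : ℕ) (x y : β) :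
    gE ((gB (p := p) (o := o) c) n x y) = ((Fintype.card p : ℂ) / (Fintype.card o : ℂ)) *
      (gE (etaP' c ((gA (p := p) (o := o) c) n) x y) +
        ∑ u ∈ range n, gE ((etaP' c ((gA (p := p) (o := o) c) u) * (gB (p := p) (o := o) c) (n - 1 - u)) x y)) := by
  set N : ℂ := (Fintype.card o : ℂ)⁻¹ with hN
  set P : ℂ := (Fintype.card p : ℂ)⁻¹ with hP
  have hS : ∀ (a : o) (y' : α) (b : p),
      gE ((gS (p := p) (o := o) c) (x, a) (y', b) * ((gW (p := p) (o := o) c) ^ n * (gSc (p := p) (o := o) c) : Matrix (α × p) (β × o) (GPoly m p o)) (y', b) (y, a)) =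
      ∑ i, c i x y' * gE (gDc (i, a, b)
        (((gW (p := p) (o := o) c) ^ n * (gSc (p := p) (o := o) c) : Matrix (α × p) (β × o) (GPoly m p o)) (y', b) (y, a))) := fun a y' b => by
    simp only [gS, Finset.sum_mul, map_sum, smul_mul_assoc, map_smul, gE_gY_mul, smul_eq_mul]
  have hM : ∀ a : o, gE ((gM (p := p) (o := o) c) n (x, a) (y, a)) = ∑ y', ∑ b, ∑ i, c i x y' * gE (gDc (i, a, b)
      (((gW (p := p) (o := o) c) ^ n * (gSc (p := p) (o := o) c) : Matrix (α × p) (β × o) (GPoly m p o)) (y', b) (y, a))) := fun a => by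
    rw [gM, gT, Matrix.mul_assoc, Matrix.mul_apply, map_sum, Fintype.sum_prod_type]
    exact Finset.sum_congr rfl fun y' _ => Finset.sum_congr rfl fun b _ => hS a y' b
  have hlast : gE (etaP' c ((gA (p := p) (o := o) c) n) x y) = ∑ y', ∑ b : p, ∑ i, c i x y' *
      ∑ y₂, P * star (c i y y₂) * gE (((gW (p := p) (o := o) c) ^ n) (y', b) (y₂, b)) := by
    simp only [etaP', gA, liftC, Matrix.sum_apply, Matrix.mul_apply, Matrix.of_apply,
      Matrix.conjTranspose_apply, ← smul_eq_C_mul, Finset.mul_sum, Finset.smul_sum,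
      mul_smul_comm, smul_smul, map_sum, map_smul, smul_eq_mul, mul_comm _ (C _)]
    simp only [← Finset.sum_product', Finset.univ_product_univ]
    exact Fintype.sum_equiv
      ⟨fun q => (q.2.2.1, q.2.2.2, q.1, q.2.1), fun q => (q.2.2.1, q.2.2.2, q.1, q.2.1),
        fun q => rfl, fun q => rfl⟩ _ _ fun q => by simp only [hP, Equiv.coe_fn_mk]; ring
  have hrhs : ∀ u, gE ((etaP' c ((gA (p := p) (o := o) c) u) * (gB (p := p) (o := o) c) (n - 1 - u)) x y) = ∑ a : o, ∑ y', ∑ b : p, ∑ i,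
      c i x y' * ∑ x₂, ∑ y₂, N * (P * star (c i x₂ y₂)) *
        gE (((gW (p := p) (o := o) c) ^ u) (y', b) (y₂, b) * (gM (p := p) (o := o) c) (n - 1 - u) (x₂, a) (y, a)) := fun u => by
    simp only [etaP', gB, gA, liftC, Matrix.sum_apply, Matrix.mul_apply, Matrix.of_apply,
      Matrix.conjTranspose_apply, ← smul_eq_C_mul, Finset.sum_mul, Finset.mul_sum, Finset.smul_sum,
      smul_mul_assoc, mul_smul_comm, smul_smul, map_sum, map_smul, smul_eq_mul, mul_comm _ (C _)]
    simp only [← Finset.sum_product', Finset.univ_product_univ]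
    exact Fintype.sum_equiv
      ⟨fun q => (q.2.1, q.2.2.2.2.1, q.2.2.2.2.2, q.2.2.1, q.1, q.2.2.2.1),
        fun q => (q.2.2.2.2.1, q.1, q.2.2.2.1, q.2.2.2.2.2, q.2.1, q.2.2.1),
        fun q => rfl, fun q => rfl⟩ _ _ fun q => by simp only [hN, hP, Equiv.coe_fn_mk]; ring
  rw [show (gB (p := p) (o := o) c) n x y = N • ∑ a : o, (gM (p := p) (o := o) c) n (x, a) (y, a) from rfl]
  simp only [map_smul, map_sum, hM, gDc_pow_gSc_apply, map_add, mul_add, Finset.sum_add_distrib,
    hlast, hrhs, smul_eq_mul, Finset.sum_const, Finset.card_univ, nsmul_eq_mul]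
  congr 1
  · have hp : (Fintype.card p : ℂ) ≠ 0 := by simp
    have ho : (Fintype.card o : ℂ) ≠ 0 := by simp
    simp only [hN, hP, Finset.mul_sum]
    refine Finset.sum_congr rfl fun y' _ => Finset.sum_congr rfl fun b _ =>
      Finset.sum_congr rfl fun i _ => Finset.sum_congr rfl fun y₂ _ => ?_
    field_simp
  · have hp : (Fintype.card p : ℂ) ≠ 0 := by simp
    simp only [Finset.mul_sum]
    rw [Finset.sum_comm (s := range n)]
    refine Finset.sum_congr rfl fun a _ => ?_
    rw [Finset.sum_comm (s := range n)]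
    refine Finset.sum_congr rfl fun y' _ => ?_
    rw [Finset.sum_comm (s := range n)]
    refine Finset.sum_congr rfl fun b _ => ?_
    rw [Finset.sum_comm (s := range n)]
    refine Finset.sum_congr rfl fun i _ => Finset.sum_congr rfl fun u _ =>
      Finset.sum_congr rfl fun x₂ _ => Finset.sum_congr rfl fun y₂ _ => ?_
    simp only [hN, hP]
    field_simp

end

end Vale.Agent.P095.Amen.Random
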