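import Vale.Agent.P095.Amen.Random.Gauss

/-!
# P095: the covariance identity for Gaussian polynomials

Along `θ ↦ cos θ • x + sin θ • x'` the derivative of `E f(x) g(·)` is `-sin θ • ∑ E (∂f)(x) (∂g)(·)`.
-/

namespace Vale.Agent.P095.Amen.Random

open MvPolynomial Finset

noncomputable section

variable {ι : Type}

/-- A polynomial at `cos θ • x + sin θ • x'`. -/
def rot (θ : ℝ) : MvPolynomial ι ℂ →ₐ[ℂ] MvPolynomial (ι ⊕ ι) ℂ :=
  aeval fun i => (Real.cos θ : ℂ) • X (Sum.inl i) + (Real.sin θ : ℂ) • X (Sum.inr i)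

/-- A polynomial at `x`. -/
def fst' : MvPolynomial ι ℂ →ₐ[ℂ] MvPolynomial (ι ⊕ ι) ℂ := rename Sum.inl

/-- A polynomial at `x'`. -/
def snd' : MvPolynomial ι ℂ →ₐ[ℂ] MvPolynomial (ι ⊕ ι) ℂ := rename Sum.inr

theorem rot_X (θ : ℝ) (i : ι) : rot θ (X i) =
    (Real.cos θ : ℂ) • X (Sum.inl i) + (Real.sin θ : ℂ) • X (Sum.inr i) := by
  simp [rot]

theorem rot_zero : rot (ι := ι) 0 = fst' := by
  ext i : 1; simp [rot, fst']

theorem rot_pi_div_two : rot (ι := ι) (Real.pi / 2) = snd' := by
  ext i : 1; simp [rot, snd']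

theorem pderiv_inl_fst' (j : ι) (f : MvPolynomial ι ℂ) :
    pderiv (Sum.inl j) (fst' f) = fst' (pderiv j f) := pderiv_rename Sum.inl_injective j f

theorem pderiv_inr_fst' (j : ι) (f : MvPolynomial ι ℂ) : pderiv (Sum.inr j) (fst' f) = 0 := by
  induction f using MvPolynomial.induction_on with
  | C a => simp [fst']
  | add p q hp hq => simp [hp, hq]
  | mul_X p i hp =>
    rw [map_mul, pderiv_mul, hp]
    simp [fst', pderiv_X_of_ne]

theorem pderiv_inl_rot (θ : ℝ) (j : ι) (g : MvPolynomial ι ℂ) :
    pderiv (Sum.inl j) (rot θ g) = (Real.cos θ : ℂ) • rot θ (pderiv j g) := by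
  classical
  induction g using MvPolynomial.induction_on with
  | C a => simp [rot]
  | add p q hp hq => simp [hp, hq, smul_add]
  | mul_X p i hp =>
    rw [map_mul, pderiv_mul, hp, pderiv_mul, map_add, map_mul, map_mul, rot_X]
    rcases eq_or_ne i j with rfl | hij
    · simp [rot, smul_add, pderiv_X, smul_eq_C_mul]
      ring
    · simp [rot, pderiv_X, hij, smul_eq_C_mul]
      ring

theorem pderiv_inr_rot (θ : ℝ) (j : ι) (g : MvPolynomial ι ℂ) :
    pderiv (Sum.inr j) (rot θ g) = (Real.sin θ : ℂ) • rot θ (pderiv j g) := by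
  classical
  induction g using MvPolynomial.induction_on with
  | C a => simp [rot]
  | add p q hp hq => simp [hp, hq, smul_add]
  | mul_X p i hp =>
    rw [map_mul, pderiv_mul, hp, pderiv_mul, map_add, map_mul, map_mul, rot_X]
    rcases eq_or_ne i j with rfl | hij
    · simp [rot, smul_add, pderiv_X, smul_eq_C_mul]
      ring
    · simp [rot, pderiv_X, hij, smul_eq_C_mul]
      ring

variable [Fintype ι]

/-- The derivative along the rotation, before integration by parts. -/
theorem hasDerivAt_gE_rot (g : MvPolynomial ι ℂ) (θ : ℝ) :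
    ∀ f : MvPolynomial (ι ⊕ ι) ℂ, HasDerivAt (fun t => gE (f * rot t g))
      (∑ j, gE (f * (rot θ (pderiv j g) *
        (((-Real.sin θ : ℝ) : ℂ) • X (Sum.inl j) + (Real.cos θ : ℂ) • X (Sum.inr j))))) θ := by
  classical
  induction g using MvPolynomial.induction_on with
  | C a => intro f; simpa [rot] using hasDerivAt_const θ (gE (f * C a))
  | add p q hp hq =>
    intro f
    refine ((hp f).add (hq f)).congr_of_eventuallyEq
      (Filter.Eventually.of_forall fun t => ?_) |>.congr_deriv ?_
    · simp [mul_add, map_add]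
    · simp only [← Finset.sum_add_distrib, map_add, add_mul, mul_add]
      exact Finset.sum_congr rfl fun j _ => by ring
  | mul_X p i hp =>
    intro f
    have h1 := ((Real.hasDerivAt_cos θ).ofReal_comp).mul (hp (f * X (Sum.inl i)))
    have h2 := ((Real.hasDerivAt_sin θ).ofReal_comp).mul (hp (f * X (Sum.inr i)))
    have key : ∀ (a b : ℂ) (q : MvPolynomial (ι ⊕ ι) ℂ),
        gE (f * (q * (a • X (Sum.inl i) + b • X (Sum.inr i)))) =
          a * gE (f * X (Sum.inl i) * q) + b * gE (f * X (Sum.inr i) * q) := fun a b q => by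
      rw [show f * (q * (a • X (Sum.inl i) + b • X (Sum.inr i))) =
          a • (f * X (Sum.inl i) * q) + b • (f * X (Sum.inr i) * q) by
        simp only [smul_eq_C_mul]; ring, map_add, map_smul, map_smul, smul_eq_mul, smul_eq_mul]
    refine (h1.add h2).congr_of_eventuallyEq
      (Filter.Eventually.of_forall fun t => ?_) |>.congr_deriv ?_
    · simp only [Pi.add_apply, Pi.mul_apply, map_mul, rot_X]
      exact key _ _ _
    · have hj : ∀ (D : ι → MvPolynomial (ι ⊕ ι) ℂ) (j : ι),
          gE (f * (rot θ (pderiv j (p * X i)) * D j)) =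
          (Real.cos θ : ℂ) * gE (f * X (Sum.inl i) * (rot θ (pderiv j p) * D j)) +
            (Real.sin θ : ℂ) * gE (f * X (Sum.inr i) * (rot θ (pderiv j p) * D j)) +
            if j = i then gE (f * (rot θ p * D i)) else 0 := fun D j => by
        rw [pderiv_mul, map_add (rot θ), map_mul (rot θ), map_mul (rot θ), rot_X, add_mul, mul_add,
          map_add]
        congr 1
        · exact (congrArg gE (by ring)).trans
            (key (Real.cos θ : ℂ) (Real.sin θ : ℂ) (rot θ (pderiv j p) * D j))
        · rcases eq_or_ne j i with rfl | h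
          · simp
          · simp [h, pderiv_X_of_ne (Ne.symm h)]
      rw [Finset.sum_congr rfl fun j _ => hj (fun j => ((-Real.sin θ : ℝ) : ℂ) • X (Sum.inl j) +
          (Real.cos θ : ℂ) • X (Sum.inr j)) j,
        Finset.sum_add_distrib, Finset.sum_add_distrib,
        Finset.sum_ite_eq' Finset.univ i, if_pos (Finset.mem_univ i), key, ← Finset.mul_sum,
        ← Finset.mul_sum]
      ring

/-- The covariance identity, differential form. -/
theorem hasDerivAt_gE_fst'_rot (f g : MvPolynomial ι ℂ) (θ : ℝ) :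
    HasDerivAt (fun t => gE (fst' f * rot t g))
      (-(Real.sin θ : ℂ) * ∑ j, gE (fst' (pderiv j f) * rot θ (pderiv j g))) θ := by
  refine (hasDerivAt_gE_rot g θ (fst' f)).congr_deriv ?_
  rw [Finset.mul_sum]
  refine Finset.sum_congr rfl fun j _ => ?_
  have e : fst' f * (rot θ (pderiv j g) *
      (((-Real.sin θ : ℝ) : ℂ) • X (Sum.inl j) + (Real.cos θ : ℂ) • X (Sum.inr j))) =
      ((-Real.sin θ : ℝ) : ℂ) • (X (Sum.inl j) * (fst' f * rot θ (pderiv j g))) +
        (Real.cos θ : ℂ) • (X (Sum.inr j) * (fst' f * rot θ (pderiv j g))) := by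
    simp only [smul_eq_C_mul]; ring
  rw [e, map_add, map_smul, map_smul, gE_X_mul, gE_X_mul, pderiv_mul, pderiv_mul, pderiv_inl_fst',
    pderiv_inr_fst', pderiv_inl_rot, pderiv_inr_rot, map_add, map_add, zero_mul, map_zero,
    mul_smul_comm, mul_smul_comm, map_smul, map_smul, smul_eq_mul, smul_eq_mul, smul_eq_mul,
    smul_eq_mul, Complex.ofReal_neg]
  ring

/-- Independence. -/
theorem gE_fst'_mul_snd' (f g : MvPolynomial ι ℂ) : gE (fst' f * snd' g) = gE f * gE g := by
  induction f using MvPolynomial.induction_on' with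
  | monomial a c =>
    induction g using MvPolynomial.induction_on' with
    | monomial b e =>
      rw [fst', snd', rename_monomial, rename_monomial, monomial_mul, gE_monomial, gE_monomial,
        gE_monomial, momMono, momMono, momMono, Fintype.prod_sum_type]
      have hl : ∀ i, (Finsupp.mapDomain Sum.inl a + Finsupp.mapDomain Sum.inr b : ι ⊕ ι →₀ ℕ)
          (Sum.inl i) = a i := fun i => by
        simp [Finsupp.mapDomain_apply Sum.inl_injective, Finsupp.mapDomain_of_notMem_range]
      have hr : ∀ i, (Finsupp.mapDomain Sum.inl a + Finsupp.mapDomain Sum.inr b : ι ⊕ ι →₀ ℕ)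
          (Sum.inr i) = b i := fun i => by
        simp [Finsupp.mapDomain_apply Sum.inr_injective, Finsupp.mapDomain_of_notMem_range]
      simp only [hl, hr]
      ring
    | add p q hp hq => simp only [map_add, mul_add, hp, hq]
  | add p q hp hq => simp only [map_add, add_mul, hp, hq]

end

end Vale.Agent.P095.Amen.Random
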